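import Vale.Agent.P095.SI.Kernel.Moved

/-!
P095: cutting a central sequence of positive elements to the hereditary subalgebra below an element.
-/

open Filter Topology
open scoped ComplexOrder

namespace Vale.Agent.P095.SI.Ker

variable {B : Type*} [CStarAlgebra B] [PartialOrder B] [StarOrderedRing B] {A : Submodule ℂ B}

/-- The square root of a positive element fixed by `e` is fixed by `e`. -/
theorem mul_sqrt_eq {e z : B} (hz : 0 ≤ z) (h : e * z = z) :
    e * CFC.sqrt z = CFC.sqrt z := by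
  set s := CFC.sqrt z
  have hs : star s = s := (IsSelfAdjoint.of_nonneg (CFC.sqrt_nonneg z)).star_eq
  have hss : s * s = z := CFC.sqrt_mul_sqrt_self z hz
  have e1 : ((1 - e) * s) * star ((1 - e) * s) = 0 := by
    rw [star_mul, hs, mul_assoc, ← mul_assoc s s, hss, ← mul_assoc, sub_mul, one_mul, h, sub_self,
      zero_mul]
  have := (CStarRing.mul_star_self_eq_zero_iff _).1 e1
  rw [sub_mul, one_mul, sub_eq_zero] at this
  exact this.symm

/-- The data of the cut of `C` by `z`. -/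
theorem cut_facts (hA : IsSimpleIdeal A) {ω : Ultrafilter ℕ} (hω : (↑ω : Filter ℕ) ≤ atTop)
    {e z : B} (he : e ∈ A) (hz : 0 ≤ z) (hez : e * z = z) {C : ℕ → B} (hC : CentralTo A C)
    (hC0 : ∀ n, 0 ≤ C n) {L : ℝ} (hL : HasN ω A C L) :
    z ∈ A ∧ ∃ Y : ℕ → B, (∀ n, 0 ≤ Y n ∧ e * Y n = Y n) ∧
      Tendsto (fun n => ‖Y n - C n * z‖) (↑ω : Filter ℕ) (𝓝 0) ∧
      Tendsto (fun n => ‖Y n‖) (↑ω : Filter ℕ) (𝓝 (L * ‖z‖)) := by
  set s := CFC.sqrt z
  have hs : star s = s := (IsSelfAdjoint.of_nonneg (CFC.sqrt_nonneg z)).star_eq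
  have hss : s * s = z := CFC.sqrt_mul_sqrt_self z hz
  have hes : e * s = s := mul_sqrt_eq hz hez
  have hsA : s ∈ A := hes ▸ (hA.2.1 s e he).2
  have hzA : z ∈ A := hez ▸ (hA.2.1 z e he).2
  have h1 : Tendsto (fun n => ‖s * C n * s - C n * z‖) (↑ω : Filter ℕ) (𝓝 0) := by
    refine (tendsto_dist_mul_right (w := fun _ => s) (fun _ => le_refl ‖s‖)
      (comm_tendsto hω hC hsA)).congr fun n => ?_
    rw [← norm_neg, neg_sub, ← hss]; simp only [mul_assoc]
  refine ⟨hzA, fun n => s * C n * s, fun n => ⟨?_, ?_⟩, h1, tendsto_norm_congr h1 (hL z hzA)⟩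
  · have := star_left_conjugate_nonneg (hC0 n) s
    rwa [hs] at this
  · rw [← mul_assoc, ← mul_assoc, hes]

theorem norm_inv_smul {Y : B} (hY : 0 < ‖Y‖) : ‖‖Y‖⁻¹ • Y‖ = 1 := by
  rw [norm_smul, norm_inv, norm_norm, inv_mul_cancel₀ hY.ne']

theorem exists_start {e : B} (hne : Nondeg e) :
    ∃ z : B, e * z = z ∧ 0 ≤ z ∧ ‖z‖ = 1 := by
  obtain ⟨z, hz0, hez⟩ := hne
  have hp : 0 < ‖z * star z‖ :=
    norm_pos_iff.2 ((CStarRing.mul_star_self_ne_zero_iff z).2 hz0)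
  refine ⟨‖z * star z‖⁻¹ • (z * star z), ?_, smul_nonneg (inv_nonneg.2 (norm_nonneg _))
    (mul_star_self_nonneg z), norm_inv_smul hp⟩
  rw [mul_smul_comm, ← mul_assoc, hez]

/-- One step of the iteration towards orthogonality. -/
theorem shrink_step (hA : IsSimpleIdeal A) (σ : B ≃⋆ₐ[ℂ] B)
    (hσ : ∀ a ∈ A, σ a ∈ A ∧ σ.symm a ∈ A) {ω : Ultrafilter ℕ} (hω : (↑ω : Filter ℕ) ≤ atTop)
    {h : ℕ → B} (hhC : CentralTo A h) (hh : ∀ n, 0 ≤ h n ∧ ‖h n‖ ≤ 1) {L M ρ ρ' : ℝ} (hL : 0 < L)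
    (hρ0 : 0 ≤ ρ) (hρ : ρ < ρ') (hM : M ≤ ρ * L ^ 2) (hhL : HasN ω A h L)
    (hhM : HasN ω A (fun n => h n * σ (h n)) M) {e : B} (he : e ∈ A) {z x : B} {K : ℝ} (hK : 0 < K)
    (hez : e * z = z) (hz0 : 0 ≤ z) (hz1 : ‖z‖ = 1) (hzx : ‖z * x * σ z‖ ≤ K) :
    ∃ z', e * z' = z' ∧ 0 ≤ z' ∧ ‖z'‖ = 1 ∧ ‖z' * x * σ z'‖ ≤ ρ' * K := by
  obtain ⟨hzA, Y, hY, hY1, hY2⟩ := cut_facts hA hω he hz0 hez hhC (fun n => (hh n).1) hhL
  rw [hz1, mul_one] at hY2
  have hσh : CentralTo A fun n => σ (h n) := centralTo_map σ hσ hhC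
  have hzxA : z * x ∈ A := (hA.2.1 x z hzA).2
  set q := z * x * σ z with hq
  have hqA : q ∈ A := (hA.2.1 (σ z) _ hzxA).2
  have hσY : Tendsto (fun n => ‖σ (Y n) - σ (h n) * σ z‖) (↑ω : Filter ℕ) (𝓝 0) := by
    refine hY1.congr fun n => ?_
    rw [← map_mul, ← map_sub, StarAlgEquiv.norm_map]
  -- the products converge to those of the sequence
  have hb : Tendsto (fun n => ‖Y n * x * σ (Y n) - h n * σ (h n) * q‖) (↑ω : Filter ℕ) (𝓝 0) := by
    have lim : Tendsto (fun n => ‖Y n - h n * z‖ * ‖x‖ * ‖σ (Y n)‖ +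
        ‖z‖ * ‖x‖ * ‖σ (Y n) - σ (h n) * σ z‖ + ‖σ (h n) * (z * x) - z * x * σ (h n)‖ * ‖σ z‖)
        (↑ω : Filter ℕ) (𝓝 0) := by
      have hn : Tendsto (fun n => ‖σ (Y n)‖) (↑ω : Filter ℕ) (𝓝 L) :=
        hY2.congr fun n => (StarAlgEquiv.norm_map σ _).symm
      simpa using (((hY1.mul_const ‖x‖).mul hn).add (hσY.const_mul (‖z‖ * ‖x‖))).add
        ((comm_tendsto hω hσh hzxA).mul_const ‖σ z‖)
    refine squeeze_zero (fun n => norm_nonneg _) (fun n => ?_) lim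
    have e1 : Y n * x * σ (Y n) - h n * σ (h n) * q = (Y n - h n * z) * x * σ (Y n)
        + h n * (z * x * (σ (Y n) - σ (h n) * σ z))
        + h n * ((z * x * σ (h n) - σ (h n) * (z * x)) * σ z) := by
      rw [hq]; noncomm_ring
    rw [e1]
    refine norm_add₃_le.trans (add_le_add (add_le_add ?_ ?_) ?_)
    · exact (norm_mul_le _ _).trans (mul_le_mul_of_nonneg_right (norm_mul_le _ _) (norm_nonneg _))
    · refine (norm_mul_le _ _).trans ((mul_le_of_le_one_left (norm_nonneg _) (hh n).2).trans ?_)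
      exact (norm_mul_le _ _).trans (mul_le_mul_of_nonneg_right (norm_mul_le _ _) (norm_nonneg _))
    · refine (norm_mul_le _ _).trans ((mul_le_of_le_one_left (norm_nonneg _) (hh n).2).trans ?_)
      rw [norm_sub_rev (σ (h n) * (z * x))]
      exact norm_mul_le _ _
  have hlim := tendsto_norm_congr hb (hhM q hqA)
  have hlt : M * ‖q‖ < ρ' * K * L ^ 2 := by
    calc M * ‖q‖ ≤ ρ * L ^ 2 * ‖q‖ := mul_le_mul_of_nonneg_right hM (norm_nonneg _)
      _ ≤ ρ * L ^ 2 * K := mul_le_mul_of_nonneg_left hzx (by positivity)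
      _ < ρ' * K * L ^ 2 := by nlinarith [mul_pos (sub_pos.2 hρ) (mul_pos hK (pow_pos hL 2))]
  obtain ⟨n, hn1, hn2⟩ :=
    ((hlim.eventually_lt ((hY2.pow 2).const_mul (ρ' * K)) hlt).and
      (hY2.eventually (lt_mem_nhds hL))).exists
  refine ⟨‖Y n‖⁻¹ • Y n, ?_, smul_nonneg (inv_nonneg.2 (norm_nonneg _)) (hY n).1,
    norm_inv_smul hn2, ?_⟩
  · rw [mul_smul_comm, (hY n).2]
  · rw [← Complex.coe_smul, map_smul, Complex.coe_smul, Complex.coe_smul, smul_mul_assoc,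
      smul_mul_assoc, mul_smul_comm, smul_smul, norm_smul, Real.norm_eq_abs,
      abs_of_nonneg (by positivity)]
    rw [← mul_inv, inv_mul_le_iff₀ (by positivity)]
    calc ‖Y n * x * σ (Y n)‖ ≤ ρ' * K * ‖Y n‖ ^ 2 := hn1.le
      _ = _ := by ring

/-- Splitting one member of an almost orthogonal family into two. -/
theorem split_family (hA : IsSimpleIdeal A) {ω : Ultrafilter ℕ} (hω : (↑ω : Filter ℕ) ≤ atTop)
    {C₁ C₂ : ℕ → B} (h1 : CentralTo A C₁) (h2 : CentralTo A C₂)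
    (hp1 : ∀ n, 0 ≤ C₁ n ∧ ‖C₁ n‖ ≤ 1) (hp2 : ∀ n, 0 ≤ C₂ n ∧ ‖C₂ n‖ ≤ 1)
    (h12 : Tendsto (fun n => ‖C₁ n * C₂ n‖) (↑ω : Filter ℕ) (𝓝 0)) {L : ℝ} (hL : 0 < L)
    (hN1 : HasN ω A C₁ L) (hN2 : HasN ω A C₂ L) {e : B} (he : e ∈ A) {T : ℕ}
    (z : Fin (T + 1) → B) (hz : ∀ t, e * z t = z t ∧ 0 ≤ z t ∧ ‖z t‖ = 1) {η η' : ℝ} (hη : η < η')
    (hη0 : 0 < η') (hzz : ∀ s t, s ≠ t → ‖z s * z t‖ ≤ η) :
    ∃ u : Fin (T + 2) → B, (∀ t, e * u t = u t ∧ 0 ≤ u t ∧ ‖u t‖ = 1) ∧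
      ∀ s t, s ≠ t → ‖u s * u t‖ ≤ η' := by
  obtain ⟨he0, h00, h01⟩ := hz 0
  obtain ⟨hzA, U, hU, hU1, hU2⟩ := cut_facts hA hω he h00 he0 h1 (fun n => (hp1 n).1) hN1
  obtain ⟨-, V, hV, hV1, hV2⟩ := cut_facts hA hω he h00 he0 h2 (fun n => (hp2 n).1) hN2
  rw [h01, mul_one] at hU2 hV2
  have cross : ∀ (C Y : ℕ → B), HasN ω A C L →
      Tendsto (fun n => ‖Y n - C n * z 0‖) (↑ω : Filter ℕ) (𝓝 0) →
      Tendsto (fun n => ‖Y n‖) (↑ω : Filter ℕ) (𝓝 L) →
      ∀ t : Fin T, ∀ᶠ n in (↑ω : Filter ℕ), ‖Y n * z t.succ‖ < η' * ‖Y n‖ := by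
    intro C Y hC hY hYn t
    have hm : z 0 * z t.succ ∈ A := (hA.2.1 _ _ hzA).2
    have hlim : Tendsto (fun n => ‖Y n * z t.succ‖) (↑ω : Filter ℕ) (𝓝 (L * ‖z 0 * z t.succ‖)) := by
      refine tendsto_norm_congr ?_ (hC _ hm)
      refine (tendsto_dist_mul_right (w := fun _ => z t.succ) (fun _ => le_refl ‖z t.succ‖)
        hY).congr fun n => ?_
      simp only [mul_assoc]
    refine hlim.eventually_lt (hYn.const_mul η') ?_
    rw [mul_comm η']
    exact mul_lt_mul_of_pos_left ((hzz 0 t.succ (Fin.succ_ne_zero t).symm).trans_lt hη) hL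
  have hUV : ∀ᶠ n in (↑ω : Filter ℕ), ‖U n * V n‖ < η' * (‖U n‖ * ‖V n‖) := by
    have lim : Tendsto (fun n => ‖U n - C₁ n * z 0‖ * ‖V n‖ +
        ‖z 0‖ * ‖V n - C₂ n * z 0‖ + ‖C₂ n * z 0 - z 0 * C₂ n‖ * ‖z 0‖ +
        ‖C₁ n * C₂ n‖ * ‖z 0 * z 0‖) (↑ω : Filter ℕ) (𝓝 0) := by
      simpa using ((((hU1.mul hV2)).add (hV1.const_mul ‖z 0‖)).add
        ((comm_tendsto hω h2 hzA).mul_const ‖z 0‖)).add (h12.mul_const ‖z 0 * z 0‖)
    have h0 : Tendsto (fun n => ‖U n * V n‖) (↑ω : Filter ℕ) (𝓝 0) := by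
      refine squeeze_zero (fun n => norm_nonneg _) (fun n => ?_) lim
      have e1 : U n * V n = (U n - C₁ n * z 0) * V n + C₁ n * (z 0 * (V n - C₂ n * z 0))
          + C₁ n * ((z 0 * C₂ n - C₂ n * z 0) * z 0) + C₁ n * C₂ n * (z 0 * z 0) := by
        noncomm_ring
      rw [e1]
      refine (norm_add_le _ _).trans (add_le_add (norm_add₃_le.trans
        (add_le_add (add_le_add (norm_mul_le _ _) ?_) ?_)) (norm_mul_le _ _))
      · exact (norm_mul_le _ _).trans ((mul_le_of_le_one_left (norm_nonneg _) (hp1 n).2).trans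
          (norm_mul_le _ _))
      · refine (norm_mul_le _ _).trans ((mul_le_of_le_one_left (norm_nonneg _) (hp1 n).2).trans ?_)
        rw [norm_sub_rev (C₂ n * z 0)]
        exact norm_mul_le _ _
    exact h0.eventually_lt ((hU2.mul hV2).const_mul η') (by positivity)
  obtain ⟨n, hn1, hn2, hn3, hn4, hn5⟩ :=
    ((eventually_all.2 (cross C₁ U hN1 hU1 hU2)).and
      ((eventually_all.2 (cross C₂ V hN2 hV1 hV2)).and
        (hUV.and ((hU2.eventually (lt_mem_nhds hL)).and (hV2.eventually (lt_mem_nhds hL)))))).exists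
  let u : Fin (T + 2) → B :=
    Fin.cons (‖U n‖⁻¹ • U n) (Fin.cons (‖V n‖⁻¹ • V n) fun t => z t.succ)
  have hu : ∀ t, e * u t = u t ∧ 0 ≤ u t ∧ ‖u t‖ = 1 := by
    refine Fin.cases ?_ (Fin.cases ?_ fun t => ?_)
    · simp only [u, Fin.cons_zero]
      exact ⟨by rw [mul_smul_comm, (hU n).2],
        smul_nonneg (inv_nonneg.2 (norm_nonneg _)) (hU n).1, norm_inv_smul hn4⟩
    · simp only [u, Fin.cons_succ, Fin.cons_zero]
      exact ⟨by rw [mul_smul_comm, (hV n).2],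
        smul_nonneg (inv_nonneg.2 (norm_nonneg _)) (hV n).1, norm_inv_smul hn5⟩
    · simp only [u, Fin.cons_succ]
      exact hz t.succ
  have hsymm : ∀ a b : B, 0 ≤ a → 0 ≤ b → ‖a * b‖ = ‖b * a‖ := fun a b ha hb => by
    rw [← norm_star, star_mul, (IsSelfAdjoint.of_nonneg ha).star_eq,
      (IsSelfAdjoint.of_nonneg hb).star_eq]
  have hlow : ∀ s t, s < t → ‖u s * u t‖ ≤ η' := by
    have hVt : ∀ t : Fin T, ‖(‖V n‖⁻¹ • V n) * z t.succ‖ ≤ η' := fun t => by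
      rw [smul_mul_assoc, norm_smul, norm_inv, norm_norm, inv_mul_le_iff₀ hn5]
      linarith [hn2 t]
    intro s t h
    induction s using Fin.cases with
    | zero =>
      induction t using Fin.cases with
      | zero => exact absurd h (lt_irrefl _)
      | succ t =>
        induction t using Fin.cases with
        | zero =>
          simp only [u, Fin.cons_zero, Fin.cons_succ]
          rw [smul_mul_assoc, mul_smul_comm, smul_smul, norm_smul, norm_mul, norm_inv, norm_inv,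
            norm_norm, norm_norm, ← mul_inv, inv_mul_le_iff₀ (mul_pos hn4 hn5)]
          linarith
        | succ t =>
          simp only [u, Fin.cons_zero, Fin.cons_succ]
          rw [smul_mul_assoc, norm_smul, norm_inv, norm_norm, inv_mul_le_iff₀ hn4]
          linarith [hn1 t]
    | succ s =>
      induction t using Fin.cases with
      | zero => exact absurd h (not_lt.2 (Fin.zero_le _))
      | succ t =>
        have h' := Fin.succ_lt_succ_iff.1 h
        induction s using Fin.cases with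
        | zero =>
          induction t using Fin.cases with
          | zero => exact absurd h' (lt_irrefl _)
          | succ t =>
            simp only [u, Fin.cons_zero, Fin.cons_succ]
            exact hVt t
        | succ s =>
          induction t using Fin.cases with
          | zero => exact absurd h' (not_lt.2 (Fin.zero_le _))
          | succ t =>
            simp only [u, Fin.cons_succ]
            exact (hzz _ _ fun hh => (Fin.succ_lt_succ_iff.1 h').ne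
              (Fin.succ_injective _ hh)).trans hη.le
  refine ⟨u, hu, fun s t hst => ?_⟩
  rcases lt_or_gt_of_ne hst with h | h
  · exact hlow s t h
  · rw [hsymm _ _ (hu s).2.1 (hu t).2.1]; exact hlow t s h

end Vale.Agent.P095.SI.Ker
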