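import Vale.Agent.P095.SI.Kernel.Norm

/-!
P095: if two central sequences of positive contractions differ, some spectral piece of one meets a
distant spectral piece of the other.
-/

open Filter Topology WithCStarModule
open scoped ComplexOrder InnerProductSpace

namespace Vale.Agent.P095.SI.Ker

/-- The hat at the integer `k`. -/
def hat (k : ℤ) (x : ℝ) : ℝ := max 0 (1 - |x - k|)

theorem hat_nonneg (k : ℤ) (x : ℝ) : 0 ≤ hat k x := le_max_left _ _

theorem hat_le_one (k : ℤ) (x : ℝ) : hat k x ≤ 1 :=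
  max_le zero_le_one (by linarith [abs_nonneg (x - k)])

theorem hat_ne_zero {k : ℤ} {x : ℝ} (h : hat k x ≠ 0) : |x - k| < 1 := by
  by_contra hc
  exact h (max_eq_left (by linarith [not_lt.1 hc]))

theorem hat_eq_zero {k : ℤ} {x : ℝ} (h1 : k ≠ ⌊x⌋) (h2 : k ≠ ⌊x⌋ + 1) : hat k x = 0 := by
  by_contra hc
  obtain ⟨ha, hb⟩ := abs_lt.1 (hat_ne_zero hc)
  have hk : ⌊x⌋ < k + 1 := Int.floor_lt.2 (by push_cast; linarith)
  have hk' : k - 1 ≤ ⌊x⌋ := Int.le_floor.2 (by push_cast; linarith)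
  omega

theorem sum_hat_pair (F : ℤ → ℝ) (x : ℝ) :
    ∑ k ∈ ({⌊x⌋, ⌊x⌋ + 1} : Finset ℤ), F k * hat k x =
      (1 - Int.fract x) * F ⌊x⌋ + Int.fract x * F (⌊x⌋ + 1) := by
  have h0 := Int.fract_nonneg x
  have h1 := Int.fract_lt_one x
  have e : x - ⌊x⌋ = Int.fract x := rfl
  have e1 : hat ⌊x⌋ x = 1 - Int.fract x := by
    rw [hat, e, abs_of_nonneg h0, max_eq_right (by linarith)]
  have e2 : hat (⌊x⌋ + 1) x = Int.fract x := by
    rw [hat, show x - ((⌊x⌋ + 1 : ℤ) : ℝ) = Int.fract x - 1 by push_cast; linarith,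
      abs_of_nonpos (by linarith), max_eq_right (by linarith)]
    ring
  rw [Finset.sum_pair (by omega), e1, e2]
  ring

theorem sum_hat_le (s : Finset ℤ) (x : ℝ) : ∑ k ∈ s, hat k x ≤ 1 := by
  calc ∑ k ∈ s, hat k x ≤ ∑ k ∈ s ∪ {⌊x⌋, ⌊x⌋ + 1}, hat k x :=
        Finset.sum_le_sum_of_subset_of_nonneg Finset.subset_union_left fun k _ _ => hat_nonneg k x
    _ = ∑ k ∈ ({⌊x⌋, ⌊x⌋ + 1} : Finset ℤ), (fun _ => (1 : ℝ)) k * hat k x := by
        simp only [one_mul]
        exact (Finset.sum_subset Finset.subset_union_right fun k _ hk => by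
          simp only [Finset.mem_insert, Finset.mem_singleton, not_or] at hk
          exact hat_eq_zero hk.1 hk.2).symm
    _ = 1 := by rw [sum_hat_pair]; ring

theorem sum_hat (F : ℤ → ℝ) {s : Finset ℤ} {N : ℕ} (hs : Finset.Icc (0 : ℤ) N ⊆ s) {x : ℝ}
    (h0 : 0 ≤ x) (h1 : x ≤ N) :
    ∑ k ∈ s, F k * hat k x = (1 - Int.fract x) * F ⌊x⌋ + Int.fract x * F (⌊x⌋ + 1) := by
  have hfl : 0 ≤ ⌊x⌋ := Int.floor_nonneg.2 h0
  have hfu : ⌊x⌋ ≤ (N : ℤ) := (Int.floor_mono h1).trans (by simp)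
  rw [← sum_hat_pair, Finset.sum_subset (Finset.subset_union_left (s₂ := {⌊x⌋, ⌊x⌋ + 1}))]
  · refine (Finset.sum_subset Finset.subset_union_right fun k _ hk => ?_).symm
    simp only [Finset.mem_insert, Finset.mem_singleton, not_or] at hk
    rw [hat_eq_zero hk.1 hk.2, mul_zero]
  · intro k hk hks
    rcases Finset.mem_union.1 hk with hk | hk
    · exact absurd hk hks
    simp only [Finset.mem_insert, Finset.mem_singleton] at hk
    rcases hk with rfl | rfl
    · exact absurd (hs (Finset.mem_Icc.2 ⟨hfl, hfu⟩)) hks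
    · have hN : (N : ℤ) < ⌊x⌋ + 1 := by
        by_contra hc
        exact hks (hs (Finset.mem_Icc.2 ⟨by omega, by omega⟩))
      have hfN : ⌊x⌋ = (N : ℤ) := by omega
      have e : hat (⌊x⌋ + 1) x = 0 := by
        refine max_eq_left ?_
        have hxN : x = N := le_antisymm h1 (by
          have := Int.floor_le x; rw [hfN] at this; exact_mod_cast this)
        rw [hfN, hxN]; push_cast; simp
      rw [e, mul_zero]

variable {B : Type*} [CStarAlgebra B] [PartialOrder B] [StarOrderedRing B]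

/-- Cauchy–Schwarz for finite sums in a C*-algebra. -/
theorem norm_sum_mul_le {ι : Type*} [Fintype ι] (u v : ι → B) :
    ‖∑ i, u i * v i‖ ≤ Real.sqrt ‖∑ i, u i * star (u i)‖ * Real.sqrt ‖∑ i, star (v i) * v i‖ := by
  have h := CStarModule.norm_inner_le (A := B) (C⋆ᵐᵒᵈ(B, ι → B))
    (x := (WithCStarModule.equiv B (ι → B)).symm (fun i => star (v i)))
    (y := (WithCStarModule.equiv B (ι → B)).symm u)
  rw [pi_inner, pi_norm, pi_norm, mul_comm] at h
  simpa [inner_def] using h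

theorem mem_Icc_of_spectrum {z : B} (hz : 0 ≤ z) (hz1 : ‖z‖ ≤ 1) {t : ℝ} (ht : t ∈ spectrum ℝ z) :
    0 ≤ t ∧ t ≤ 1 := by
  rcases subsingleton_or_nontrivial B with hsub | hnt
  · simp at ht
  · refine ⟨spectrum_nonneg_of_nonneg hz ht, ?_⟩
    have := spectrum.norm_le_norm_of_mem ht
    rw [Real.norm_eq_abs] at this
    linarith [le_abs_self t]

/-- The spectral pieces of `z` at the mesh `1/N`. -/
noncomputable def piece (N : ℕ) (k : ℤ) (z : B) : B := cfc (fun t : ℝ => hat k (N * t)) z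

theorem continuous_hat (N : ℕ) (k : ℤ) : Continuous fun t : ℝ => hat k (N * t) := by
  unfold hat; fun_prop

theorem piece_star (N : ℕ) (k : ℤ) (z : B) : star (piece N k z) = piece N k z :=
  (cfc_predicate (R := ℝ) (fun t : ℝ => hat k (N * t)) z).star_eq

theorem piece_norm_le (N : ℕ) (k : ℤ) (z : B) : ‖piece N k z‖ ≤ 1 :=
  norm_cfc_le zero_le_one fun t _ => by
    rw [Real.norm_eq_abs, abs_of_nonneg (hat_nonneg _ _)]; exact hat_le_one _ _

theorem sum_piece {N : ℕ} {z : B} (hz : 0 ≤ z) (hz1 : ‖z‖ ≤ 1) {s : Finset ℤ}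
    (hs : Finset.Icc (0 : ℤ) N ⊆ s) :
    ∑ k ∈ s, piece N k z = 1 ∧ ∑ k ∈ s, (k : ℝ) • piece N k z = (N : ℝ) • z := by
  have hsa := IsSelfAdjoint.of_nonneg hz
  have hc := fun k => (continuous_hat N k).continuousOn (s := spectrum ℝ z)
  have hb : ∀ t ∈ spectrum ℝ z, 0 ≤ (N : ℝ) * t ∧ (N : ℝ) * t ≤ N := fun t ht => by
    obtain ⟨h0, h1⟩ := mem_Icc_of_spectrum hz hz1 ht
    exact ⟨by positivity, mul_le_of_le_one_right (Nat.cast_nonneg N) h1⟩
  constructor
  · rw [show (1 : B) = cfc (fun _ : ℝ => (1 : ℝ)) z from (cfc_const_one ℝ z).symm]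
    simp only [piece]
    rw [← cfc_sum _ _ _ fun k _ => hc k]
    refine cfc_congr fun t ht => ?_
    have := sum_hat (fun _ => 1) hs (hb t ht).1 (hb t ht).2
    simp only [one_mul] at this
    rw [Finset.sum_apply, this]; ring
  · simp only [piece]
    simp_rw [← cfc_smul (_ : ℝ) _ z (hc _)]
    rw [← cfc_sum (fun (k : ℤ) (t : ℝ) => (k : ℝ) • hat k (N * t)) z s
        fun k _ => (hc k).const_smul (k : ℝ),
      ← cfc_const_mul_id (N : ℝ) z]
    refine cfc_congr fun t ht => ?_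
    have := sum_hat (fun k => (k : ℝ)) hs (hb t ht).1 (hb t ht).2
    rw [Finset.sum_apply]
    simp only [smul_eq_mul]
    rw [this]
    have := Int.fract_add_floor ((N : ℝ) * t)
    push_cast; nlinarith

theorem norm_sum_piece_sq (N : ℕ) (z : B) {ι : Type*} [Fintype ι] (φ : ι → ℤ)
    (hφ : Function.Injective φ) : ‖∑ i, piece N (φ i) z * piece N (φ i) z‖ ≤ 1 := by
  have hc := fun k => (continuous_hat N k).continuousOn (s := spectrum ℝ z)
  have e : ∑ i, piece N (φ i) z * piece N (φ i) z =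
      cfc (∑ i, fun t : ℝ => hat (φ i) (N * t) * hat (φ i) (N * t)) z := by
    rw [cfc_sum_univ (fun (i : ι) (t : ℝ) => hat (φ i) (N * t) * hat (φ i) (N * t)) z
      fun i => (hc _).mul (hc _)]
    exact Finset.sum_congr rfl fun i _ => by simp only [piece]; rw [← cfc_mul _ _ z (hc _) (hc _)]
  rw [e]
  refine norm_cfc_le zero_le_one fun t _ => ?_
  rw [Finset.sum_apply, Real.norm_eq_abs,
    abs_of_nonneg (Finset.sum_nonneg fun i _ => mul_self_nonneg _)]
  calc ∑ i, hat (φ i) (N * t) * hat (φ i) (N * t) ≤ ∑ i, hat (φ i) (N * t) :=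
        Finset.sum_le_sum fun i _ => mul_le_of_le_one_left (hat_nonneg _ _) (hat_le_one _ _)
    _ = ∑ k ∈ Finset.univ.map ⟨φ, hφ⟩, hat k (N * t) := by rw [Finset.sum_map]; rfl
    _ ≤ 1 := sum_hat_le _ _

/-- The difference of `z` and `w` is controlled by the products of distant pieces. -/
theorem norm_sub_le_far {N : ℕ} (hN : 0 < N) {z w : B} (hz : 0 ≤ z) (hz1 : ‖z‖ ≤ 1) (hw : 0 ≤ w)
    (hw1 : ‖w‖ ≤ 1) (a : B) :
    ‖(z - w) * a‖ ≤ 10 / N * ‖a‖ + ∑ j ∈ Finset.Icc (0 : ℤ) N,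
      ∑ k ∈ (Finset.Icc (-2 : ℤ) (N + 2)).filter (fun k => ¬ (j - 2 ≤ k ∧ k ≤ j + 2)),
        |((j : ℝ) - k) / N| * ‖piece N j z * piece N k w * a‖ := by
  set s := Finset.Icc (0 : ℤ) N with hs
  set T := Finset.Icc (-2 : ℤ) (N + 2) with hT
  have hsT : s ⊆ T := Finset.Icc_subset_Icc (by omega) (by omega)
  obtain ⟨hp1, hp2⟩ := sum_piece (N := N) hz hz1 (s := s) subset_rfl
  obtain ⟨hq1, hq2⟩ := sum_piece (N := N) hw hw1 (s := T) hsT
  set f : ℤ → ℤ → B := fun j k => (((j : ℝ) - k) / N) • (piece N j z * piece N k w * a) with hf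
  have hN' : (N : ℝ) ≠ 0 := Nat.cast_ne_zero.2 hN.ne'
  have hza : z * a = ∑ j ∈ s, ∑ k ∈ T, ((j : ℝ) / N) • (piece N j z * piece N k w * a) := by
    calc z * a = ((N : ℝ)⁻¹ • ∑ j ∈ s, (j : ℝ) • piece N j z) * (∑ k ∈ T, piece N k w) * a := by
          rw [hp2, hq1, inv_smul_smul₀ hN', mul_one]
      _ = _ := by
          simp only [Finset.smul_sum, Finset.sum_mul, Finset.mul_sum, smul_mul_assoc, smul_smul,
            div_eq_inv_mul]
          exact Finset.sum_comm
  have hwa : w * a = ∑ j ∈ s, ∑ k ∈ T, ((k : ℝ) / N) • (piece N j z * piece N k w * a) := by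
    calc w * a = (∑ j ∈ s, piece N j z) * ((N : ℝ)⁻¹ • ∑ k ∈ T, (k : ℝ) • piece N k w) * a := by
          rw [hq2, hp1, inv_smul_smul₀ hN', one_mul]
      _ = _ := by
          simp only [Finset.smul_sum, Finset.sum_mul, Finset.mul_sum, smul_mul_assoc,
            mul_smul_comm, smul_smul, div_eq_inv_mul]
          exact Finset.sum_comm
  have hsum : (z - w) * a = ∑ d ∈ Finset.Icc (-2 : ℤ) 2, ∑ j ∈ s, f j (j + d) +
      ∑ j ∈ s, ∑ k ∈ T.filter (fun k => ¬ (j - 2 ≤ k ∧ k ≤ j + 2)), f j k := by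
    rw [sub_mul, hza, hwa, ← Finset.sum_sub_distrib, Finset.sum_comm (s := Finset.Icc (-2 : ℤ) 2),
      ← Finset.sum_add_distrib]
    refine Finset.sum_congr rfl fun j hj => ?_
    rw [← Finset.sum_sub_distrib]
    have hj' := Finset.mem_Icc.1 hj
    rw [← Finset.sum_filter_add_sum_filter_not T (fun k => j - 2 ≤ k ∧ k ≤ j + 2)]
    refine congrArg₂ (· + ·) ?_ ?_
    · refine Finset.sum_nbij' (fun k => k - j) (fun d => j + d) ?_ ?_ ?_ ?_ ?_
      · intro k hk; simp [hT] at hk ⊢; omega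
      · intro d hd; simp [hT] at hd ⊢; omega
      · intro k _; simp
      · intro d _; simp
      · intro k _; simp [hf, ← sub_smul, sub_div]
    · exact Finset.sum_congr rfl fun k _ => by simp [hf, ← sub_smul, sub_div]
  rw [hsum]
  refine (norm_add_le _ _).trans (add_le_add ?_ ?_)
  · have hd : ∀ d ∈ Finset.Icc (-2 : ℤ) 2, ‖∑ j ∈ s, f j (j + d)‖ ≤ 2 / N * ‖a‖ := by
      intro d hd
      have hd' := Finset.mem_Icc.1 hd
      have e : ∑ j ∈ s, f j (j + d) =
          (-(d : ℝ) / N) • ((∑ j : ↥s, piece N (↑j) z * piece N (↑j + d) w) * a) := by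
        rw [Finset.sum_mul, Finset.smul_sum,
          Finset.sum_coe_sort s (fun j => (-(d : ℝ) / N) • (piece N j z * piece N (j + d) w * a))]
        refine Finset.sum_congr rfl fun j _ => ?_
        simp only [hf]; push_cast; ring_nf
      rw [e, norm_smul]
      refine mul_le_mul ?_ ?_ (norm_nonneg _) (by positivity)
      · rw [Real.norm_eq_abs, abs_div, abs_neg, Nat.abs_cast]
        gcongr
        exact abs_le.2 ⟨by exact_mod_cast hd'.1, by exact_mod_cast hd'.2⟩
      · refine (norm_mul_le _ _).trans (mul_le_of_le_one_left (norm_nonneg _) ?_)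
        refine (norm_sum_mul_le _ _).trans (mul_le_one₀ ?_ (Real.sqrt_nonneg _) ?_)
        · rw [Real.sqrt_le_one]
          simp only [piece_star]
          exact norm_sum_piece_sq N z (fun j : ↥s => (↑j : ℤ)) Subtype.val_injective
        · rw [Real.sqrt_le_one]
          simp only [piece_star]
          exact norm_sum_piece_sq N w (fun j : ↥s => (↑j : ℤ) + d)
            fun i j h => Subtype.ext (add_right_cancel h)
    refine ((norm_sum_le _ _).trans (Finset.sum_le_sum hd)).trans_eq ?_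
    simp; ring
  · refine (norm_sum_le _ _).trans (Finset.sum_le_sum fun j _ => ?_)
    refine (norm_sum_le _ _).trans (Finset.sum_le_sum fun k _ => ?_)
    rw [norm_smul, Real.norm_eq_abs]

end Vale.Agent.P095.SI.Ker
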