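import Vale.Agent.P095.SI.Kernel.Hats

/-!
P095: an automorphism that is nontrivial on central sequences strictly shrinks some central
sequence of positive contractions.
-/

open Filter Topology
open scoped ComplexOrder

namespace Vale.Agent.P095.SI.Ker

variable {B : Type*} [CStarAlgebra B] [PartialOrder B] [StarOrderedRing B] {A : Submodule ℂ B}

omit [PartialOrder B] [StarOrderedRing B] in
theorem centralTo_map (σ : B ≃⋆ₐ[ℂ] B) (hσ : ∀ a ∈ A, σ a ∈ A ∧ σ.symm a ∈ A) {x : ℕ → B}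
    (hx : CentralTo A x) : CentralTo A fun n => σ (x n) := by
  intro a ha
  refine (hx (σ.symm a) (hσ a ha).2).congr fun n => ?_
  rw [← StarAlgEquiv.norm_map σ, map_sub, map_mul, map_mul, σ.apply_symm_apply]

theorem HasN.le_bound (hA : IsSimpleIdeal A) {ω : Ultrafilter ℕ} {x : ℕ → B} {c R : ℝ}
    (hR : ∀ n, ‖x n‖ ≤ R) (h : HasN ω A x c) : c ≤ R := by
  obtain ⟨a, ha, ha0⟩ := exists_ne_zero hA
  refine le_of_mul_le_mul_right ?_ (norm_pos_iff.2 ha0)
  exact le_of_tendsto (h a ha) (Eventually.of_forall fun n =>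
    (norm_mul_le _ _).trans (mul_le_mul_of_nonneg_right (hR n) (norm_nonneg _)))

omit [PartialOrder B] [StarOrderedRing B] in
theorem centralTo_scal (r : ℝ) {x : ℕ → B} (hx : CentralTo A x) :
    CentralTo A fun n => r • x n := by
  intro a ha
  refine (by simpa using (hx a ha).const_mul |r| :
    Tendsto (fun n => |r| * ‖x n * a - a * x n‖) atTop (𝓝 0)).congr fun n => ?_
  rw [smul_mul_assoc, mul_smul_comm, ← smul_sub, norm_smul, Real.norm_eq_abs]

omit [PartialOrder B] [StarOrderedRing B] in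
theorem centralTo_const_one : CentralTo A fun _ : ℕ => (1 : B) := by
  intro a _; simp

variable [TopologicalSpace.SeparableSpace B]

/-- The negation of triviality gives a central sequence of contractions moved against `A`. -/
theorem exists_moved_contraction (hA : IsSimpleIdeal A) (σ : B ≃⋆ₐ[ℂ] B)
    (hσ : ∀ a ∈ A, σ a ∈ A ∧ σ.symm a ∈ A) (h : ¬ TrivOn A σ) :
    ∃ a ∈ A, ∃ ε > (0 : ℝ), ∃ x : ℕ → B, (∀ n, ‖x n‖ ≤ 1) ∧ CentralTo A x ∧
      ∀ᶠ n in atTop, ε ≤ ‖(σ (x n) - x n) * a‖ := by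
  unfold TrivOn at h
  push Not at h
  obtain ⟨a, ha, ε, hε, h⟩ := h
  haveI : SecondCountableTopology B := UniformSpace.secondCountable_of_separable B
  haveI : Nonempty A := ⟨⟨0, A.zero_mem⟩⟩
  obtain ⟨y, hy⟩ := TopologicalSpace.exists_dense_seq A
  classical
  have key : ∀ n : ℕ, ∃ x : B, ‖x‖ ≤ 1 ∧ (∀ i ≤ n, ‖x * y i - y i * x‖ < 1 / (n + 1)) ∧
      (‖(σ x - x) * a‖ ≤ ε → ε < ‖a * (σ x - x)‖) := fun n => by
    obtain ⟨x, hx1, hx2, hx3⟩ := h ((Finset.range (n + 1)).image fun i => (y i : B))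
      (fun b hb => by obtain ⟨i, _, rfl⟩ := Finset.mem_image.1 hb; exact (y i).2)
      (1 / (n + 1)) (by positivity)
    exact ⟨x, hx1, fun i hi => hx2 _ (Finset.mem_image.2
      ⟨i, Finset.mem_range.2 (Nat.lt_succ_of_le hi), rfl⟩), hx3⟩
  choose x hx1 hx2 hx3 using key
  have hxC : CentralTo A x := by
    intro b hb
    rw [Metric.tendsto_atTop]
    intro δ hδ
    obtain ⟨i, hi⟩ := hy.exists_dist_lt (⟨b, hb⟩ : A) (show (0 : ℝ) < δ / 4 by positivity)
    obtain ⟨M, hM⟩ := exists_nat_gt (4 / δ)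
    refine ⟨max i M, fun n hn => ?_⟩
    rw [Real.dist_eq, sub_zero, abs_of_nonneg (norm_nonneg _)]
    have h1 := hx2 n i (le_trans (le_max_left _ _) hn)
    have h2 : ‖b - (y i : B)‖ < δ / 4 := by rwa [Subtype.dist_eq, dist_eq_norm] at hi
    have e : x n * b - b * x n =
        x n * (b - y i) + (x n * y i - y i * x n) + ((y i : B) - b) * x n := by noncomm_ring
    have h3 : (1 : ℝ) / (n + 1) ≤ δ / 4 := by
      have hn' : (M : ℝ) ≤ n := Nat.cast_le.2 (le_trans (le_max_right _ _) hn)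
      rw [div_le_div_iff₀ (by positivity) (by norm_num)]
      rw [div_lt_iff₀ hδ] at hM
      nlinarith
    rw [e]
    refine lt_of_le_of_lt norm_add₃_le ?_
    have i1 : ‖x n * (b - y i)‖ ≤ ‖b - (y i : B)‖ :=
      (norm_mul_le _ _).trans (mul_le_of_le_one_left (norm_nonneg _) (hx1 n))
    have i2 : ‖((y i : B) - b) * x n‖ ≤ ‖b - (y i : B)‖ := by
      rw [norm_sub_rev b]
      exact (norm_mul_le _ _).trans (mul_le_of_le_one_right (norm_nonneg _) (hx1 n))
    linarith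
  have hd : CentralTo A fun n => σ (x n) + (-1 : ℝ) • x n :=
    (centralTo_map σ hσ hxC).add (centralTo_scal (-1) hxC)
  refine ⟨a, ha, ε / 2, half_pos hε, x, hx1, hxC, ?_⟩
  filter_upwards [Metric.tendsto_nhds.1 (hd a ha) (ε / 2) (half_pos hε)] with n hn
  rw [Real.dist_eq, sub_zero, abs_of_nonneg (norm_nonneg _)] at hn
  simp only [neg_smul, one_smul, ← sub_eq_add_neg] at hn
  by_contra hc
  have hlt := hx3 n (by linarith [not_le.1 hc])
  have := norm_le_insert' (a * (σ (x n) - x n)) ((σ (x n) - x n) * a)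
  rw [norm_sub_rev] at this
  linarith [not_le.1 hc]

/-- A central sequence of positive contractions moved against `A`, with a definite size. -/
theorem exists_moved_positive (hA : IsSimpleIdeal A) (σ : B ≃⋆ₐ[ℂ] B)
    (hσ : ∀ a ∈ A, σ a ∈ A ∧ σ.symm a ∈ A) (h : ¬ TrivOn A σ) :
    ∃ ω : Ultrafilter ℕ, (↑ω : Filter ℕ) ≤ atTop ∧ ∃ z : ℕ → B, CentralTo A z ∧
      (∀ n, 0 ≤ z n ∧ ‖z n‖ ≤ 1) ∧
      ∃ c > 0, HasN ω A (fun n => z n - σ (z n)) c := by
  obtain ⟨a, ha, ε, hε, x, hx1, hxC, hev⟩ := exists_moved_contraction hA σ hσ h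
  obtain ⟨ω, hω⟩ : ∃ ω : Ultrafilter ℕ, (↑ω : Filter ℕ) ≤ atTop :=
    ⟨Ultrafilter.of atTop, Ultrafilter.of_le atTop⟩
  -- positive contractions built from a self-adjoint contraction
  let P : (ℕ → B) → ℕ → B := fun g n => (1 / 2 : ℝ) • (1 + g n)
  have hP : ∀ g : ℕ → B, (∀ n, IsSelfAdjoint (g n)) → (∀ n, ‖g n‖ ≤ 1) → CentralTo A g →
      CentralTo A (P g) ∧ (∀ n, 0 ≤ P g n ∧ ‖P g n‖ ≤ 1) ∧
        ∀ n, P g n - σ (P g n) = (1 / 2 : ℝ) • (g n - σ (g n)) := by
    intro g hsa hg1 hgC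
    refine ⟨centralTo_scal _ (centralTo_const_one.add hgC), fun n => ⟨?_, ?_⟩, fun n => ?_⟩
    · refine smul_nonneg (by norm_num) ?_
      have := (hsa n).neg_algebraMap_norm_le_self
      have h1 : algebraMap ℝ B ‖g n‖ ≤ 1 := by
        rw [← map_one (algebraMap ℝ B)]; exact algebraMap_mono B (hg1 n)
      have := (neg_le_neg h1).trans this
      simpa [neg_le_iff_add_nonneg, add_comm] using! this
    · rw [norm_smul, Real.norm_eq_abs, abs_of_pos (by norm_num : (0 : ℝ) < 1 / 2)]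
      have : ‖(1 : B)‖ ≤ 1 := by
        rcases subsingleton_or_nontrivial B with hs | hn
        · rw [Subsingleton.elim (1 : B) 0, norm_zero]; norm_num
        · rw [norm_one]
      linarith [norm_add_le (1 : B) (g n), hg1 n]
    · simp only [P, ← Complex.coe_smul, map_smul, map_add, map_one]
      rw [← smul_sub, add_sub_add_left_eq_sub]
  let g1 : ℕ → B := fun n => (1 / 2 : ℝ) • (x n + star (x n))
  let g2 : ℕ → B := fun n => ((-Complex.I) / 2 : ℂ) • (x n - star (x n))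
  have hxs : CentralTo A fun n => star (x n) := CentralTo.star hA hxC
  have hg1C : CentralTo A g1 := centralTo_scal _ (hxC.add hxs)
  have hg2C : CentralTo A g2 := by
    intro b hb
    refine (by simpa using ((hxC.add (centralTo_scal (-1) hxs)) b hb).const_mul ‖(-Complex.I) / 2‖ :
      Tendsto (fun n => ‖(-Complex.I) / 2‖ * ‖(x n + -star (x n)) * b - b * (x n + -star (x n))‖)
        atTop (𝓝 0)).congr fun n => ?_
    simp only [g2]
    rw [smul_mul_assoc, mul_smul_comm, ← smul_sub, norm_smul]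
    simp only [sub_eq_add_neg]
  have hb1 : ∀ n, ‖g1 n‖ ≤ 1 := fun n => by
    simp only [g1, norm_smul, Real.norm_eq_abs]
    rw [abs_of_pos (by norm_num : (0 : ℝ) < 1 / 2)]
    linarith [norm_add_le (x n) (star (x n)), norm_star (x n), hx1 n]
  have hb2 : ∀ n, ‖g2 n‖ ≤ 1 := fun n => by
    simp only [g2, norm_smul, norm_div, norm_neg, Complex.norm_I, Complex.norm_two]
    linarith [norm_sub_le (x n) (star (x n)), norm_star (x n), hx1 n]
  have hs1 : ∀ n, IsSelfAdjoint (g1 n) := fun n =>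
    (IsSelfAdjoint.all _).smul (IsSelfAdjoint.add_star_self (x n))
  have hs2 : ∀ n, IsSelfAdjoint (g2 n) := fun n => by
    rw [IsSelfAdjoint]
    simp only [g2, star_smul, star_sub, star_star, Complex.star_def, map_div₀, map_neg, Complex.conj_I,
      map_ofNat, neg_neg]
    rw [← neg_sub (x n), smul_neg, ← neg_smul, neg_div]
  obtain ⟨hC1, hp1, hd1⟩ := hP g1 hs1 hb1 hg1C
  obtain ⟨hC2, hp2, hd2⟩ := hP g2 hs2 hb2 hg2C
  have hdC : ∀ z : ℕ → B, CentralTo A z → CentralTo A fun n => z n - σ (z n) := fun z hz => by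
    have := hz.add (centralTo_scal (-1) (centralTo_map σ hσ hz))
    simpa [sub_eq_add_neg] using this
  have hdR : ∀ z : ℕ → B, (∀ n, ‖z n‖ ≤ 1) → ∀ n, ‖z n - σ (z n)‖ ≤ 2 := fun z hz n => by
    linarith [norm_sub_le (z n) (σ (z n)), hz n, StarAlgEquiv.norm_map σ (z n)]
  obtain ⟨c1, hc1⟩ := exists_hasN hA hω (hdR _ fun n => (hp1 n).2) (hdC _ hC1)
  obtain ⟨c2, hc2⟩ := exists_hasN hA hω (hdR _ fun n => (hp2 n).2) (hdC _ hC2)
  have hsplit : ∀ n, σ (x n) - x n = (-2 : ℝ) • (P g1 n - σ (P g1 n)) +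
      (-2 * Complex.I) • (P g2 n - σ (P g2 n)) := fun n => by
    rw [hd1, hd2]
    simp only [g1, g2, ← Complex.coe_smul, map_smul, map_add, map_sub, smul_smul, smul_add,
      smul_sub]
    push_cast
    ring_nf
    simp only [Complex.I_sq]
    module
  have hle : ε ≤ 2 * (c1 * ‖a‖) + 2 * (c2 * ‖a‖) := by
    refine ge_of_tendsto (((hc1 a ha).const_mul 2).add ((hc2 a ha).const_mul 2)) ?_
    filter_upwards [hev.filter_mono hω] with n hn
    refine hn.trans ?_
    rw [hsplit n, add_mul, smul_mul_assoc, smul_mul_assoc]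
    refine (norm_add_le _ _).trans_eq ?_
    simp [norm_smul]
  rcases (hc1.nonneg hA).lt_or_eq with h1 | h1
  · exact ⟨ω, hω, _, hC1, hp1, c1, h1, hc1⟩
  rcases (hc2.nonneg hA).lt_or_eq with h2 | h2
  · exact ⟨ω, hω, _, hC2, hp2, c2, h2, hc2⟩
  rw [← h1, ← h2] at hle
  linarith

omit [TopologicalSpace.SeparableSpace B] in
/-- A distant pair of spectral functions of `z` and `w` meets. -/
theorem exists_far_pair (hA : IsSimpleIdeal A) {ω : Ultrafilter ℕ}
    (hω : (↑ω : Filter ℕ) ≤ atTop) {z w : ℕ → B} (hzC : CentralTo A z) (hwC : CentralTo A w)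
    (hz : ∀ n, 0 ≤ z n ∧ ‖z n‖ ≤ 1) (hw : ∀ n, 0 ≤ w n ∧ ‖w n‖ ≤ 1) {c : ℝ} (hc : 0 < c)
    (hzc : HasN ω A (fun n => z n - w n) c) :
    ∃ F φ ψ : ℝ → ℝ, (Continuous F ∧ Continuous φ ∧ Continuous ψ) ∧
      (∀ t, (0 ≤ F t ∧ F t ≤ 1) ∧ (0 ≤ φ t ∧ φ t ≤ 1) ∧ (0 ≤ ψ t ∧ ψ t ≤ 1)) ∧
      (∀ t, F t * φ t = φ t) ∧ (∀ t, F t * F t + ψ t * ψ t ≤ 1) ∧
      ∃ cp > 0, HasN ω A (fun n => cfc φ (z n) * cfc ψ (w n)) cp := by
  have hzs := fun n => IsSelfAdjoint.of_nonneg (hz n).1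
  have hws := fun n => IsSelfAdjoint.of_nonneg (hw n).1
  obtain ⟨N, hN⟩ := exists_nat_gt (10 / c)
  have hN0 : 0 < N := Nat.cast_pos.1 ((by positivity : (0 : ℝ) < 10 / c).trans hN)
  have hNc : 10 / (N : ℝ) < c := by
    rw [div_lt_iff₀ hc] at hN
    rw [div_lt_iff₀ (by exact_mod_cast hN0)]
    linarith
  choose cp hcp using fun j k : ℤ => exists_hasN hA hω (R := 1)
    (x := fun n => piece N j (z n) * piece N k (w n))
    (fun n => (norm_mul_le _ _).trans (mul_le_one₀ (piece_norm_le N j _) (norm_nonneg _)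
      (piece_norm_le N k _)))
    (CentralTo.mul (fun n => piece_norm_le N j (z n)) (fun n => piece_norm_le N k (w n))
      (CentralTo.cfc (continuous_hat N j) (fun n => (hz n).2) hzs hzC)
      (CentralTo.cfc (continuous_hat N k) (fun n => (hw n).2) hws hwC))
  obtain ⟨j, k, hfar, hjk⟩ : ∃ j k : ℤ, ¬ (j - 2 ≤ k ∧ k ≤ j + 2) ∧ 0 < cp j k := by
    by_contra hne
    obtain ⟨a, ha, ha0⟩ := exists_ne_zero hA
    have h1 : c * ‖a‖ ≤ 10 / N * ‖a‖ + ∑ j ∈ Finset.Icc (0 : ℤ) N, ∑ k ∈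
        (Finset.Icc (-2 : ℤ) (N + 2)).filter (fun k => ¬ (j - 2 ≤ k ∧ k ≤ j + 2)),
          |((j : ℝ) - k) / N| * (cp j k * ‖a‖) := by
      refine le_of_tendsto_of_tendsto (hzc a ha) (tendsto_const_nhds.add (tendsto_finset_sum _
        fun j _ => tendsto_finset_sum _ fun k _ => (hcp j k a ha).const_mul _))
        (Eventually.of_forall fun n => ?_)
      exact norm_sub_le_far hN0 (hz n).1 (hz n).2 (hw n).1 (hw n).2 a
    rw [Finset.sum_eq_zero fun j _ => Finset.sum_eq_zero fun k hk => ?_, add_zero] at h1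
    · exact absurd (le_of_mul_le_mul_right h1 (norm_pos_iff.2 ha0)) (not_le.2 hNc)
    · have h0 : cp j k = 0 := le_antisymm (le_of_not_gt fun hp =>
        hne ⟨j, k, (Finset.mem_filter.1 hk).2, hp⟩) ((hcp j k).nonneg hA)
      rw [h0]; ring
  refine ⟨fun t => max 0 (min 1 (2 - |(N : ℝ) * t - j|)), fun t => hat j (N * t),
    fun t => hat k (N * t), ⟨by fun_prop, continuous_hat N j, continuous_hat N k⟩,
    fun t => ⟨⟨le_max_left _ _, max_le zero_le_one (min_le_left _ _)⟩,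
      ⟨hat_nonneg _ _, hat_le_one _ _⟩, hat_nonneg _ _, hat_le_one _ _⟩,
    fun t => ?_, fun t => ?_, cp j k, hjk, hcp j k⟩
  · by_cases h0 : hat j (N * t) = 0
    · simp [h0]
    · have := hat_ne_zero h0
      simp only [min_eq_left (by linarith : (1 : ℝ) ≤ 2 - |(N : ℝ) * t - j|),
        max_eq_right zero_le_one, one_mul]
  · simp only
    by_cases h0 : hat k (N * t) = 0
    · rw [h0]
      have h2 : max (0 : ℝ) (min 1 (2 - |(N : ℝ) * t - j|)) ≤ 1 :=
        max_le zero_le_one (min_le_left _ _)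
      nlinarith [le_max_left (0 : ℝ) (min 1 (2 - |(N : ℝ) * t - j|))]
    · have h3 : (3 : ℝ) ≤ |(j : ℝ) - k| := by
        have : (3 : ℤ) ≤ |j - k| := by rw [le_abs]; omega
        exact_mod_cast this
      have h4 := abs_sub_le (j : ℝ) (N * t) k
      rw [abs_sub_comm (j : ℝ) (N * t)] at h4
      have := hat_ne_zero h0
      rw [max_eq_left (le_trans (min_le_right _ _) (by linarith))]
      nlinarith [hat_nonneg k (N * t), hat_le_one k (N * t)]

omit [TopologicalSpace.SeparableSpace B] in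
/-- The order estimates behind the shrinking. -/
theorem shrink_ineq {Fw f g m : B} {μ : ℝ} (hμ : 0 ≤ μ) (hFs : star Fw = Fw) (hfs : star f = f)
    (hgs : star g = g) (hf : f * f ≤ 1) (hg : g * g ≤ 1) (hFg : Fw * Fw + g * g ≤ 1)
    (hm : μ • (star m * m) ≤ star (g * (f * m)) * (g * (f * m))) :
    μ • (star m * m) ≤ star (f * m) * (f * m) ∧
      star (Fw * ((f * m) * star (f * m))) * (Fw * ((f * m) * star (f * m))) ≤
        (1 - μ) • (star ((f * m) * star (f * m)) * ((f * m) * star (f * m))) := by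
  set r := f * m with hr
  set h := r * star r with hh
  have hhs : star h = h := by rw [hh, star_mul, star_star]
  have e0 : star (g * r) * (g * r) = star r * (g * g) * r := by
    rw [star_mul, hgs]; simp only [mul_assoc]
  rw [e0] at hm
  refine ⟨hm.trans ?_, ?_⟩
  · calc star r * (g * g) * r ≤ star r * 1 * r := star_left_conjugate_le_conjugate hg _
      _ = _ := by rw [mul_one]
  have hkey : μ • (star r * r) ≤ star r * (g * g) * r := by
    refine le_trans (smul_le_smul_of_nonneg_left ?_ hμ) hm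
    calc star r * r = star m * (f * f) * m := by rw [hr, star_mul, hfs]; simp only [mul_assoc]
      _ ≤ star m * 1 * m := star_left_conjugate_le_conjugate hf _
      _ = _ := by rw [mul_one]
  have e2 : μ • (h * h) ≤ h * (g * g) * h := by
    calc μ • (h * h) = r * (μ • (star r * r)) * star r := by
          rw [mul_smul_comm, smul_mul_assoc, hh]; simp only [mul_assoc]
      _ ≤ r * (star r * (g * g) * r) * star r := star_right_conjugate_le_conjugate hkey _
      _ = _ := by rw [hh]; simp only [mul_assoc]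
  have e3 := star_left_conjugate_le_conjugate hFg h
  rw [hhs] at e3
  calc star (Fw * h) * (Fw * h) = h * (Fw * Fw) * h := by
        rw [star_mul, hhs, hFs]; simp only [mul_assoc]
    _ ≤ h * h - h * (g * g) * h := by
        rw [le_sub_iff_add_le, ← add_mul, ← mul_add]
        simpa only [mul_one] using e3
    _ ≤ h * h - μ • (h * h) := sub_le_sub_left e2 _
    _ = _ := by rw [hhs, sub_smul, one_smul]

omit [TopologicalSpace.SeparableSpace B] in
/-- The contracted sequence: `h` with `‖h σh‖` strictly below `‖h‖²` against `A`. -/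
theorem exists_shrunk (hA : IsSimpleIdeal A) (σ : B ≃⋆ₐ[ℂ] B)
    (hσ : ∀ a ∈ A, σ a ∈ A ∧ σ.symm a ∈ A) {ω : Ultrafilter ℕ}
    (hω : (↑ω : Filter ℕ) ≤ atTop) {z : ℕ → B} (hzC : CentralTo A z)
    (hz : ∀ n, 0 ≤ z n ∧ ‖z n‖ ≤ 1) {c : ℝ} (hc : 0 < c)
    (hzc : HasN ω A (fun n => z n - σ (z n)) c) :
    ∃ h : ℕ → B, CentralTo A h ∧ (∀ n, 0 ≤ h n ∧ ‖h n‖ ≤ 1) ∧ ∃ L > (0 : ℝ), ∃ ρ : ℝ,
      0 ≤ ρ ∧ ρ < 1 ∧ HasN ω A h L ∧
        ∃ M ≤ ρ * L ^ 2, HasN ω A (fun n => h n * σ (h n)) M := by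
  set w := fun n => σ (z n) with hwdef
  have hwC : CentralTo A w := centralTo_map σ hσ hzC
  have hw : ∀ n, 0 ≤ w n ∧ ‖w n‖ ≤ 1 := fun n =>
    ⟨map_nonneg σ (hz n).1, (StarAlgEquiv.norm_map σ (z n)).trans_le (hz n).2⟩
  have hzs := fun n => IsSelfAdjoint.of_nonneg (hz n).1
  have hws := fun n => IsSelfAdjoint.of_nonneg (hw n).1
  obtain ⟨F, φ, ψ, ⟨hFc, hφc, hψc⟩, h01, hFφ, hFψ, cp, hjk, hcp⟩ :=
    exists_far_pair hA hω hzC hwC hz hw hc hzc
  set f := fun n => cfc φ (z n) with hfdef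
  set g := fun n => cfc ψ (w n) with hgdef
  set Fz := fun n => cfc F (z n) with hFzdef
  set Fw := fun n => cfc F (w n) with hFwdef
  have hfC : CentralTo A f := CentralTo.cfc hφc (fun n => (hz n).2) hzs hzC
  have hgC : CentralTo A g := CentralTo.cfc hψc (fun n => (hw n).2) hws hwC
  have hf1 : ∀ n, ‖f n‖ ≤ 1 := fun n => norm_cfc_le zero_le_one fun t _ => by
    rw [Real.norm_eq_abs, abs_of_nonneg (h01 t).2.1.1]; exact (h01 t).2.1.2
  have hg1 : ∀ n, ‖g n‖ ≤ 1 := fun n => norm_cfc_le zero_le_one fun t _ => by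
    rw [Real.norm_eq_abs, abs_of_nonneg (h01 t).2.2.1]; exact (h01 t).2.2.2
  have hfs : ∀ n, star (f n) = f n := fun n => (cfc_predicate (R := ℝ) φ (z n)).star_eq
  have hgs : ∀ n, star (g n) = g n := fun n => (cfc_predicate (R := ℝ) ψ (w n)).star_eq
  have hFw1 : ∀ n, ‖Fw n‖ ≤ 1 := fun n => norm_cfc_le zero_le_one fun t _ => by
    rw [Real.norm_eq_abs, abs_of_nonneg (h01 t).1.1]; exact (h01 t).1.2
  have hFwC : CentralTo A Fw := CentralTo.cfc hFc (fun n => (hw n).2) hws hwC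
  have hFzf : ∀ n, Fz n * f n = f n := fun n => by
    simp only [hFzdef, hfdef]
    rw [← cfc_mul F φ (z n) hFc.continuousOn hφc.continuousOn]
    exact cfc_congr fun t _ => hFφ t
  -- the overlap
  set y := fun n => star (g n * f n) * (g n * f n) with hydef
  have hgfR : ∀ n, ‖g n * f n‖ ≤ 1 := fun n =>
    (norm_mul_le _ _).trans (mul_le_one₀ (hg1 n) (norm_nonneg _) (hf1 n))
  have hgfC : CentralTo A fun n => g n * f n := CentralTo.mul hg1 hf1 hgC hfC
  have hgf : HasN ω A (fun n => g n * f n) (cp) := by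
    have := hcp.star hA hω (R := 1)
      (fun n => (norm_mul_le _ _).trans (mul_le_one₀ (hf1 n) (norm_nonneg _) (hg1 n)))
      (CentralTo.mul hf1 hg1 hfC hgC)
    simpa only [star_mul, hfs, hgs] using this
  have hy : HasN ω A y (cp ^ 2) := hgf.star_mul_self hA hω hgfR hgfC
  have hyR : ∀ n, ‖y n‖ ≤ 1 := fun n => by
    simp only [hydef, CStarRing.norm_star_mul_self]
    exact mul_le_one₀ (hgfR n) (norm_nonneg _) (hgfR n)
  have hy0 : ∀ n, 0 ≤ y n := fun n => star_mul_self_nonneg _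
  have hys := fun n => IsSelfAdjoint.of_nonneg (hy0 n)
  have hyC : CentralTo A y :=
    CentralTo.mul (bounded_star hgfR) hgfR (CentralTo.star hA hgfC) hgfC
  set μ := cp ^ 2 / 2 with hμ
  have hμ0 : 0 < μ := by positivity
  have hμ1 : μ < 1 := by
    have := hcp.le_bound hA (R := 1) fun n =>
      (norm_mul_le _ _).trans (mul_le_one₀ (hf1 n) (norm_nonneg _) (hg1 n))
    nlinarith
  set m := fun n => cfc (fun t : ℝ => max (t - μ) 0) (y n) with hmdef
  have hm1 : ∀ n, ‖m n‖ ≤ 1 := fun n => norm_cfc_le zero_le_one fun t ht => by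
    rw [Real.norm_eq_abs, abs_of_nonneg (le_max_right _ _)]
    exact max_le (by linarith [(mem_Icc_of_spectrum (hy0 n) (hyR n) ht).2]) zero_le_one
  have hms : ∀ n, star (m n) = m n := fun n =>
    (cfc_predicate (R := ℝ) (fun t : ℝ => max (t - μ) 0) (y n)).star_eq
  have hmC : CentralTo A m := CentralTo.cfc (by fun_prop) hyR hys hyC
  obtain ⟨cm, hcm⟩ := exists_hasN hA hω hm1 hmC
  have hcm0 : 0 < cm := by
    obtain ⟨a, ha, ha0⟩ := exists_ne_zero hA
    have h1 : cp ^ 2 * ‖a‖ ≤ μ * ‖a‖ + cm * ‖a‖ :=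
      le_of_tendsto_of_tendsto (hy a ha) (tendsto_const_nhds.add (hcm a ha))
        (Eventually.of_forall fun n => norm_le_cut (hy0 n) hμ0.le a)
    have h2 : (μ * 2 - μ) * ‖a‖ ≤ cm * ‖a‖ := by rw [hμ] at h1 ⊢; linarith
    have := le_of_mul_le_mul_right h2 (norm_pos_iff.2 ha0)
    linarith
  have hmym : ∀ n, μ • (star (m n) * m n) ≤ m n * y n * m n := fun n => by
    rw [hms]
    simp only [hmdef]
    have hyy := hys n
    have hc1 : ContinuousOn (fun t : ℝ => max (t - μ) 0) (spectrum ℝ (y n)) := by fun_prop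
    have e : cfc (fun t : ℝ => max (t - μ) 0) (y n) * y n * cfc (fun t : ℝ => max (t - μ) 0) (y n) =
        cfc (fun t : ℝ => max (t - μ) 0 * t * max (t - μ) 0) (y n) := by
      rw [cfc_mul (fun t : ℝ => max (t - μ) 0 * t) _ (y n),
        cfc_mul (fun t : ℝ => max (t - μ) 0) (fun t : ℝ => t) (y n), cfc_id' ℝ (y n)]
    rw [e, ← cfc_mul _ _ (y n) hc1 hc1]
    have hc2 : ContinuousOn (fun t : ℝ => max (t - μ) 0 * max (t - μ) 0) (spectrum ℝ (y n)) :=
      hc1.mul hc1
    rw [← cfc_smul μ _ (y n) hc2]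
    refine cfc_mono fun t _ => ?_
    simp only [smul_eq_mul]
    rcases le_total t μ with ht | ht
    · simp [max_eq_right (sub_nonpos.2 ht)]
    · rw [max_eq_left (sub_nonneg.2 ht)]
      nlinarith [mul_self_nonneg (t - μ), sub_nonneg.2 ht]
  set r := fun n => f n * m n with hrdef
  have hr1 : ∀ n, ‖r n‖ ≤ 1 := fun n =>
    (norm_mul_le _ _).trans (mul_le_one₀ (hf1 n) (norm_nonneg _) (hm1 n))
  have hrC : CentralTo A r := CentralTo.mul hf1 hm1 hfC hmC
  obtain ⟨cr, hcr⟩ := exists_hasN hA hω hr1 hrC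
  have hineq := fun n => shrink_ineq (Fw := Fw n) (f := f n) (g := g n) (m := m n) hμ0.le
    (cfc_predicate (R := ℝ) F (w n)).star_eq (hfs n) (hgs n)
    (by
      simp only [hfdef]
      rw [← cfc_mul φ φ (z n) hφc.continuousOn hφc.continuousOn]
      exact cfc_le_one _ _ fun t _ => mul_le_one₀ (h01 t).2.1.2 (h01 t).2.1.1 (h01 t).2.1.2)
    (by
      simp only [hgdef]
      rw [← cfc_mul ψ ψ (w n) hψc.continuousOn hψc.continuousOn]
      exact cfc_le_one _ _ fun t _ => mul_le_one₀ (h01 t).2.2.2 (h01 t).2.2.1 (h01 t).2.2.2)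
    (by
      simp only [hFwdef, hgdef]
      rw [← cfc_mul F F (w n) hFc.continuousOn hFc.continuousOn,
        ← cfc_mul ψ ψ (w n) hψc.continuousOn hψc.continuousOn,
        ← cfc_add (a := w n) (fun t => F t * F t) (fun t => ψ t * ψ t)
          (hFc.mul hFc).continuousOn (hψc.mul hψc).continuousOn]
      exact cfc_le_one _ _ fun t _ => hFψ t)
    (by
      refine (hmym n).trans_eq ?_
      simp only [hydef, star_mul, hfs, hgs, hms, mul_assoc])
  have hcr0 : 0 < cr := by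
    have h1 : cm ≤ Real.sqrt μ⁻¹ * cr := HasN.le_sqrt hA (inv_nonneg.2 hμ0.le) (fun n => by
      have := smul_le_smul_of_nonneg_left (hineq n).1 (inv_nonneg.2 hμ0.le)
      rwa [inv_smul_smul₀ hμ0.ne'] at this) hcm hcr
    by_contra hc0
    nlinarith [Real.sqrt_nonneg μ⁻¹, mul_nonneg (Real.sqrt_nonneg μ⁻¹) (neg_nonneg.2 (not_lt.1 hc0))]
  set h := fun n => r n * star (r n) with hhdef
  have hh1 : ∀ n, ‖h n‖ ≤ 1 := fun n => by
    simp only [hhdef]
    rw [CStarRing.norm_self_mul_star]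
    exact mul_le_one₀ (hr1 n) (norm_nonneg _) (hr1 n)
  have hh0 : ∀ n, 0 ≤ h n := fun n => mul_star_self_nonneg _
  have hhs : ∀ n, star (h n) = h n := fun n => (IsSelfAdjoint.of_nonneg (hh0 n)).star_eq
  have hrsC : CentralTo A fun n => star (r n) := CentralTo.star hA hrC
  have hhC : CentralTo A h := CentralTo.mul hr1 (bounded_star hr1) hrC hrsC
  have hhN : HasN ω A h (cr ^ 2) := by
    have := (hcr.star hA hω hr1 hrC).star_mul_self hA hω (bounded_star hr1) hrsC
    simpa only [star_star] using this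
  have hshrink : ∀ n, star (Fw n * h n) * (Fw n * h n) ≤ (1 - μ) • (star (h n) * h n) :=
    fun n => (hineq n).2
  have hFhR : ∀ n, ‖Fw n * h n‖ ≤ 1 := fun n =>
    (norm_mul_le _ _).trans (mul_le_one₀ (hFw1 n) (norm_nonneg _) (hh1 n))
  have hFhC : CentralTo A fun n => Fw n * h n := CentralTo.mul hFw1 hh1 hFwC hhC
  obtain ⟨cF, hcF⟩ := exists_hasN hA hω hFhR hFhC
  have hcFle : cF ≤ Real.sqrt (1 - μ) * cr ^ 2 :=
    HasN.le_sqrt hA (by linarith) hshrink hcF hhN
  have hhF : HasN ω A (fun n => h n * Fw n) cF := by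
    have := hcF.star hA hω hFhR hFhC
    have hFs : ∀ n, star (Fw n) = Fw n := fun n => (cfc_predicate (R := ℝ) F (w n)).star_eq
    simpa only [star_mul, hhs, hFs] using this
  have hσh : ∀ n, σ (h n) = Fw n * σ (h n) := fun n => by
    have e : Fz n * h n = h n := by
      simp only [hhdef, hrdef]
      rw [← mul_assoc (Fz n), ← mul_assoc (Fz n), hFzf]
    conv_lhs => rw [← e]
    rw [map_mul]
    congr 1
    simp only [hFzdef, hFwdef, hwdef]
    exact StarAlgHomClass.map_cfc (R := ℝ) (S := ℂ) σ F (z n) hFc.continuousOn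
      (StarAlgEquiv.isometry σ).continuous (hzs n) (hws n)
  have hσhR : ∀ n, ‖σ (h n)‖ ≤ 1 := fun n => (StarAlgEquiv.norm_map σ _).trans_le (hh1 n)
  obtain ⟨M, hM⟩ := exists_hasN hA hω (x := fun n => h n * σ (h n))
    (fun n => (norm_mul_le _ _).trans (mul_le_one₀ (hh1 n) (norm_nonneg _) (hσhR n)))
    (CentralTo.mul hh1 hσhR hhC (centralTo_map σ hσ hhC))
  refine ⟨h, hhC, fun n => ⟨hh0 n, hh1 n⟩, cr ^ 2, by positivity, Real.sqrt (1 - μ),
    Real.sqrt_nonneg _, (Real.sqrt_lt' one_pos).2 (by linarith), hhN, M, ?_, hM⟩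
  have hM' : HasN ω A (fun n => h n * Fw n * σ (h n)) M := by
    simpa only [mul_assoc, ← hσh] using hM
  have := HasN.mul_le hA hω (fun n => (norm_mul_le _ _).trans
    (mul_le_one₀ (hh1 n) (norm_nonneg _) (hFw1 n))) (centralTo_map σ hσ hhC) hhF
    (hhN.map hA σ hσ) hM'
  calc M ≤ cF * cr ^ 2 := this
    _ ≤ Real.sqrt (1 - μ) * cr ^ 2 * cr ^ 2 := mul_le_mul_of_nonneg_right hcFle (by positivity)
    _ = _ := by ring

end Vale.Agent.P095.SI.Ker
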