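import Vale.Agent.P095.SI.Basic

/-!
P095: the norm of a central sequence, seen by a simple ideal along an ultrafilter, is the same on
every element of the ideal.
-/

open Filter Topology
open scoped ComplexOrder

namespace Vale.Agent.P095.SI.Ker

/-- A bounded nonnegative sequence has a limit along an ultrafilter. -/
theorem exists_ulim (ω : Ultrafilter ℕ) (f : ℕ → ℝ) {R : ℝ} (h : ∀ n, 0 ≤ f n ∧ f n ≤ R) :
    ∃ c, 0 ≤ c ∧ c ≤ R ∧ Tendsto f ω (𝓝 c) := by
  have hsub : ↑(ω.map f) ≤ 𝓟 (Set.Icc (0 : ℝ) R) := by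
    rw [le_principal_iff]
    exact Filter.mem_map.2 (univ_mem' fun n => h n)
  obtain ⟨c, hc, hle⟩ := isCompact_Icc.ultrafilter_le_nhds (ω.map f) hsub
  exact ⟨c, hc.1, hc.2, hle⟩

variable {B : Type*} [CStarAlgebra B]

/-- The norm of `x` against the elements of `A` along `ω` is `c`. -/
def HasN (ω : Ultrafilter ℕ) (A : Submodule ℂ B) (x : ℕ → B) (c : ℝ) : Prop :=
  ∀ a ∈ A, Tendsto (fun n => ‖x n * a‖) (↑ω : Filter ℕ) (𝓝 (c * ‖a‖))

/-- A sequence close in norm has the same limit. -/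
theorem tendsto_norm_congr {l : Filter ℕ} {u v : ℕ → B} {L : ℝ}
    (h : Tendsto (fun n => ‖u n - v n‖) l (𝓝 0)) (hv : Tendsto (fun n => ‖v n‖) l (𝓝 L)) :
    Tendsto (fun n => ‖u n‖) l (𝓝 L) := by
  have h1 : Tendsto (fun n => ‖u n‖ - ‖v n‖) l (𝓝 0) :=
    squeeze_zero_norm (fun n => abs_norm_sub_norm_le _ _) h
  simpa using h1.add hv

theorem tendsto_dist_mul_left {l : Filter ℕ} {u v : ℕ → B} {w : ℕ → B} {R : ℝ}
    (hw : ∀ n, ‖w n‖ ≤ R) (h : Tendsto (fun n => ‖u n - v n‖) l (𝓝 0)) :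
    Tendsto (fun n => ‖w n * u n - w n * v n‖) l (𝓝 0) := by
  refine squeeze_zero (fun n => norm_nonneg _) (fun n => ?_) (by simpa using h.const_mul R)
  rw [← mul_sub]
  exact (norm_mul_le _ _).trans (mul_le_mul_of_nonneg_right (hw n) (norm_nonneg _))

theorem tendsto_dist_mul_right {l : Filter ℕ} {u v : ℕ → B} {w : ℕ → B} {R : ℝ}
    (hw : ∀ n, ‖w n‖ ≤ R) (h : Tendsto (fun n => ‖u n - v n‖) l (𝓝 0)) :
    Tendsto (fun n => ‖u n * w n - v n * w n‖) l (𝓝 0) := by
  refine squeeze_zero (fun n => norm_nonneg _) (fun n => ?_) (by simpa using h.mul_const R)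
  rw [← sub_mul]
  exact (norm_mul_le _ _).trans (mul_le_mul_of_nonneg_left (hw n) (norm_nonneg _))

variable {A : Submodule ℂ B} {ω : Ultrafilter ℕ}

theorem comm_tendsto (hω : (↑ω : Filter ℕ) ≤ atTop) {x : ℕ → B} (hx : CentralTo A x) {a : B}
    (ha : a ∈ A) : Tendsto (fun n => ‖x n * a - a * x n‖) (↑ω : Filter ℕ) (𝓝 0) :=
  (hx a ha).mono_left hω

theorem exists_ne_zero (hA : IsSimpleIdeal A) : ∃ a ∈ A, a ≠ 0 := by
  by_contra h
  push Not at h
  exact hA.2.2.1 ((Submodule.eq_bot_iff A).2 h)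

theorem HasN.unique (hA : IsSimpleIdeal A) {x : ℕ → B} {c c' : ℝ} (h : HasN ω A x c)
    (h' : HasN ω A x c') : c = c' := by
  obtain ⟨a, ha, ha0⟩ := exists_ne_zero hA
  exact mul_right_cancel₀ (norm_ne_zero_iff.2 ha0) (tendsto_nhds_unique (h a ha) (h' a ha))

theorem HasN.nonneg (hA : IsSimpleIdeal A) {x : ℕ → B} {c : ℝ} (h : HasN ω A x c) : 0 ≤ c := by
  obtain ⟨a, ha, ha0⟩ := exists_ne_zero hA
  exact nonneg_of_mul_nonneg_left (ge_of_tendsto (h a ha) (Eventually.of_forall fun n => norm_nonneg _))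
    (norm_pos_iff.2 ha0)

theorem HasN.pos_of_not_tendsto (hA : IsSimpleIdeal A) {x : ℕ → B} {c : ℝ} (h : HasN ω A x c)
    {a : B} (ha : a ∈ A) {ε : ℝ} (hε : 0 < ε) (hev : ∀ᶠ n in (↑ω : Filter ℕ), ε ≤ ‖x n * a‖) :
    0 < c := by
  have h1 : ε ≤ c * ‖a‖ := ge_of_tendsto (h a ha) hev
  rcases (h.nonneg hA).lt_or_eq with hc | hc
  · exact hc
  · rw [← hc, zero_mul] at h1; linarith

variable [PartialOrder B] [StarOrderedRing B]

theorem norm_mul_le_sqrt {u v b : B} {k : ℝ} (hk : 0 ≤ k) (h : star u * u ≤ k • (star v * v)) :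
    ‖u * b‖ ≤ Real.sqrt k * ‖v * b‖ := by
  have e : ‖u * b‖ ^ 2 ≤ k * ‖v * b‖ ^ 2 := by
    rw [sq, sq, ← CStarRing.norm_star_mul_self, ← CStarRing.norm_star_mul_self,
      ← abs_of_nonneg hk, ← Real.norm_eq_abs, ← norm_smul]
    refine CStarAlgebra.norm_le_norm_of_nonneg_of_le (star_mul_self_nonneg _) ?_
    have := star_left_conjugate_le_conjugate h b
    calc star (u * b) * (u * b) = star b * (star u * u) * b := by rw [star_mul]; simp [mul_assoc]
      _ ≤ star b * (k • (star v * v)) * b := this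
      _ = k • (star (v * b) * (v * b)) := by rw [star_mul]; simp [mul_assoc]
  have := Real.sqrt_le_sqrt e
  rwa [Real.sqrt_sq (norm_nonneg _), Real.sqrt_mul hk, Real.sqrt_sq (norm_nonneg _)] at this

theorem HasN.le_sqrt (hA : IsSimpleIdeal A) {x y : ℕ → B} {c c' k : ℝ} (hk : 0 ≤ k)
    (h : ∀ n, star (x n) * x n ≤ k • (star (y n) * y n)) (hx : HasN ω A x c) (hy : HasN ω A y c') :
    c ≤ Real.sqrt k * c' := by
  obtain ⟨a, ha, ha0⟩ := exists_ne_zero hA
  refine le_of_mul_le_mul_right ?_ (norm_pos_iff.2 ha0)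
  rw [mul_assoc]
  exact le_of_tendsto_of_tendsto (hx a ha) ((hy a ha).const_mul _)
    (Eventually.of_forall fun n => norm_mul_le_sqrt hk (h n))

/-- The elements killed along `ω` form a closed two-sided ideal: none or all. -/
theorem kill_dichotomy (hA : IsSimpleIdeal A) (hω : (↑ω : Filter ℕ) ≤ atTop) {x : ℕ → B}
    (hxR : ∃ R, ∀ n, ‖x n‖ ≤ R) (hx : CentralTo A x) {a b : B} (ha : a ∈ A) (ha0 : a ≠ 0)
    (hb : b ∈ A) (h : Tendsto (fun n => ‖x n * a‖) (↑ω : Filter ℕ) (𝓝 0)) :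
    Tendsto (fun n => ‖x n * b‖) (↑ω : Filter ℕ) (𝓝 0) := by
  obtain ⟨R, hR⟩ := hxR
  have hR0 : 0 ≤ R := (norm_nonneg _).trans (hR 0)
  let I : Submodule ℂ B :=
    { carrier := {u | u ∈ A ∧ Tendsto (fun n => ‖x n * u‖) (↑ω : Filter ℕ) (𝓝 0)}
      add_mem' := fun {u v} hu hv => ⟨A.add_mem hu.1 hv.1, by
        refine squeeze_zero (fun n => norm_nonneg _) (fun n => ?_) (by simpa using hu.2.add hv.2)
        rw [mul_add]; exact norm_add_le _ _⟩
      zero_mem' := ⟨A.zero_mem, by simp⟩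
      smul_mem' := fun z u hu => ⟨A.smul_mem z hu.1, by
        simpa [mul_smul_comm, norm_smul] using hu.2.const_mul ‖z‖⟩ }
  have hmem : ∀ u, u ∈ I ↔ u ∈ A ∧ Tendsto (fun n => ‖x n * u‖) (↑ω : Filter ℕ) (𝓝 0) :=
    fun u => Iff.rfl
  have hle : I ≤ A := fun u hu => hu.1
  have hcl : IsClosed (I : Set B) := by
    refine closure_subset_iff_isClosed.1 fun u hu => (hmem u).2 ⟨?_, ?_⟩
    · exact hA.1.closure_subset_iff.2 (fun v (hv : v ∈ I) => hle hv) hu
    · rw [Metric.tendsto_nhds]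
      intro ε hε
      obtain ⟨v, hv, huv⟩ := Metric.mem_closure_iff.1 hu (ε / (2 * (R + 1))) (by positivity)
      filter_upwards [Metric.tendsto_nhds.1 ((hmem v).1 hv).2 (ε / 2) (half_pos hε)] with n hn
      rw [Real.dist_eq, sub_zero, abs_of_nonneg (norm_nonneg _)] at hn ⊢
      have h1 : ‖x n * u‖ ≤ ‖x n * v‖ + R * ‖u - v‖ := by
        calc ‖x n * u‖ = ‖x n * v + x n * (u - v)‖ := by rw [← mul_add, add_sub_cancel]
          _ ≤ _ := (norm_add_le _ _).trans (add_le_add le_rfl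
            ((norm_mul_le _ _).trans (mul_le_mul_of_nonneg_right (hR n) (norm_nonneg _))))
      rw [dist_eq_norm] at huv
      have h2 : R * ‖u - v‖ ≤ (R + 1) * (ε / (2 * (R + 1))) :=
        mul_le_mul (by linarith) huv.le (norm_nonneg _) (by positivity)
      have h3 : (R + 1) * (ε / (2 * (R + 1))) = ε / 2 := by field_simp
      linarith
  have hbi : IsBimod I := by
    intro z u hu
    obtain ⟨huA, hu0⟩ := (hmem u).1 hu
    refine ⟨(hmem _).2 ⟨(hA.2.1 z u huA).1, ?_⟩, (hmem _).2 ⟨(hA.2.1 z u huA).2, ?_⟩⟩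
    · rw [Metric.tendsto_nhds]
      intro ε hε
      obtain ⟨v, hv, hv0, hv1, hvu⟩ := exists_unit_approx hA {u} (by simpa using huA)
        (δ := ε / (4 * ((R + 1) * (‖z‖ + 1)))) (by positivity)
      have hzv : z * v ∈ A := (hA.2.1 z v hv).1
      filter_upwards [Metric.tendsto_nhds.1 (comm_tendsto hω hx hzv) (ε / (4 * (‖u‖ + 1)))
          (by positivity), Metric.tendsto_nhds.1 hu0 (ε / (4 * (‖z * v‖ + 1))) (by positivity)]
        with n hn1 hn2
      rw [Real.dist_eq, sub_zero, abs_of_nonneg (norm_nonneg _)] at hn1 hn2 ⊢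
      have e : x n * (z * u) = x n * z * (u - v * u) + (x n * (z * v) - z * v * x n) * u
          + z * v * (x n * u) := by noncomm_ring
      have h1 : ‖x n * z * (u - v * u)‖ ≤ ε / 4 := by
        have hb := (hvu u (Finset.mem_singleton_self u)).1
        rw [norm_sub_rev] at hb
        calc ‖x n * z * (u - v * u)‖ ≤ (R + 1) * (‖z‖ + 1) * (ε / (4 * ((R + 1) * (‖z‖ + 1)))) := by
              refine (norm_mul_le _ _).trans (mul_le_mul ?_ hb.le (norm_nonneg _) (by positivity))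
              exact (norm_mul_le _ _).trans (mul_le_mul (by linarith [hR n]) (by linarith)
                (norm_nonneg _) (by linarith))
          _ = ε / 4 := by field_simp
      have h2 : ‖(x n * (z * v) - z * v * x n) * u‖ ≤ ε / 4 := by
        calc _ ≤ ε / (4 * (‖u‖ + 1)) * (‖u‖ + 1) := (norm_mul_le _ _).trans
              (mul_le_mul hn1.le (by linarith) (norm_nonneg _) (by positivity))
          _ = ε / 4 := by field_simp
      have h3 : ‖z * v * (x n * u)‖ ≤ ε / 4 := by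
        calc _ ≤ (‖z * v‖ + 1) * (ε / (4 * (‖z * v‖ + 1))) := (norm_mul_le _ _).trans
              (mul_le_mul (by linarith) hn2.le (norm_nonneg _) (by positivity))
          _ = ε / 4 := by field_simp
      rw [e]
      refine lt_of_le_of_lt (norm_add₃_le) ?_
      linarith
    · refine squeeze_zero (fun n => norm_nonneg _) (fun n => ?_) (by simpa using hu0.mul_const ‖z‖)
      rw [← mul_assoc]; exact norm_mul_le _ _
  rcases hA.2.2.2 I hle hcl hbi with hI | hI
  · exact absurd ((Submodule.eq_bot_iff I).1 hI a ((hmem a).2 ⟨ha, h⟩)) ha0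
  · exact ((hmem b).1 (hI.symm ▸ hb : b ∈ I)).2

theorem norm_smul_le {u v : B} {c : ℝ} (hc : 0 ≤ c) (h : c ^ 2 • (star u * u) ≤ star v * v) :
    c * ‖u‖ ≤ ‖v‖ := by
  have e : (c * ‖u‖) ^ 2 ≤ ‖v‖ ^ 2 := by
    rw [mul_pow, sq ‖u‖, sq ‖v‖, ← CStarRing.norm_star_mul_self, ← CStarRing.norm_star_mul_self,
      ← abs_of_nonneg (sq_nonneg c), ← Real.norm_eq_abs, ← norm_smul]
    exact CStarAlgebra.norm_le_norm_of_nonneg_of_le
      (smul_nonneg (sq_nonneg c) (star_mul_self_nonneg _)) h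
  exact (pow_le_pow_iff_left₀ (by positivity) (norm_nonneg _) two_ne_zero).1 e

/-- Above the level `s`, a positive element expands by `s`. -/
theorem level_le {h : B} (hh : 0 ≤ h) {s : ℝ} (hs : 0 ≤ s) (b : B) :
    s * ‖cfc (fun t : ℝ => max (t - s) 0) h * b‖ ≤
      ‖h * (cfc (fun t : ℝ => max (t - s) 0) h * b)‖ := by
  have hsa : IsSelfAdjoint h := IsSelfAdjoint.of_nonneg hh
  set k := cfc (fun t : ℝ => max (t - s) 0) h with hk
  have hksa : IsSelfAdjoint k := cfc_predicate _ _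
  refine norm_smul_le hs ?_
  have e : s ^ 2 • (k * k) ≤ k * (h * h) * k := by
    conv_rhs => rw [show h * h = cfc (fun t : ℝ => t * t) h by
      conv_lhs => rw [← cfc_id' ℝ h]
      rw [← cfc_mul (fun t : ℝ => t) (fun t : ℝ => t) h]]
    rw [hk, ← cfc_mul _ _ h, ← cfc_smul (s ^ 2) _ h, ← cfc_mul _ _ h, ← cfc_mul _ _ h]
    refine cfc_mono fun t _ => ?_
    simp only [smul_eq_mul]
    rcases le_total t s with ht | ht
    · simp [max_eq_right (sub_nonpos.2 ht)]
    · rw [max_eq_left (sub_nonneg.2 ht)]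
      calc s ^ 2 * ((t - s) * (t - s)) ≤ t ^ 2 * ((t - s) * (t - s)) :=
            mul_le_mul_of_nonneg_right (pow_le_pow_left₀ hs ht 2) (mul_self_nonneg _)
        _ = _ := by ring
  have := star_left_conjugate_le_conjugate e b
  calc s ^ 2 • (star (k * b) * (k * b)) = star b * (s ^ 2 • (k * k)) * b := by
        rw [star_mul, hksa.star_eq, mul_smul_comm, smul_mul_assoc]; simp [mul_assoc]
    _ ≤ star b * (k * (h * h) * k) * b := this
    _ = _ := by simp only [star_mul, hksa.star_eq, hsa.star_eq]; simp [mul_assoc]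

theorem norm_le_cut {h : B} (hh : 0 ≤ h) {s : ℝ} (hs : 0 ≤ s) (a : B) :
    ‖h * a‖ ≤ s * ‖a‖ + ‖cfc (fun t : ℝ => max (t - s) 0) h * a‖ := by
  have e : h = cfc (fun t : ℝ => min t s) h + cfc (fun t : ℝ => max (t - s) 0) h := by
    rw [← cfc_add _ _ _]
    conv_lhs => rw [← cfc_id' ℝ h (IsSelfAdjoint.of_nonneg hh)]
    exact cfc_congr fun t _ => by rcases le_total t s with ht | ht <;> simp [ht]
  have hb : ‖cfc (fun t : ℝ => min t s) h‖ ≤ s := norm_cfc_le hs fun t ht => by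
    have := spectrum_nonneg_of_nonneg hh ht
    rw [Real.norm_eq_abs, abs_of_nonneg (le_min this hs)]
    exact min_le_right _ _
  conv_lhs => rw [e, add_mul]
  exact (norm_add_le _ _).trans (add_le_add
    ((norm_mul_le _ _).trans (mul_le_mul_of_nonneg_right hb (norm_nonneg _))) le_rfl)

/-- For positive sequences and positive elements the norms against `A` are proportional. -/
theorem pos_prop (hA : IsSimpleIdeal A) (hω : (↑ω : Filter ℕ) ≤ atTop) {h : ℕ → B} {R : ℝ}
    (hR : ∀ n, ‖h n‖ ≤ R) (h0 : ∀ n, 0 ≤ h n) (hh : CentralTo A h) {a b : B} (ha : a ∈ A)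
    (hane : a ≠ 0) (hb : b ∈ A) (hb0 : 0 ≤ b) (hbne : b ≠ 0) {La Lb : ℝ}
    (hLa : Tendsto (fun n => ‖h n * a‖) (↑ω : Filter ℕ) (𝓝 La))
    (hLb : Tendsto (fun n => ‖h n * b‖) (↑ω : Filter ℕ) (𝓝 Lb)) :
    La / ‖a‖ * ‖b‖ ≤ Lb := by
  have hR0 : 0 ≤ R := (norm_nonneg _).trans (hR 0)
  have hna := norm_pos_iff.2 hane
  have hnb := norm_pos_iff.2 hbne
  have hLb0 : 0 ≤ Lb := ge_of_tendsto hLb (Eventually.of_forall fun n => norm_nonneg _)
  set t := La / ‖a‖ with ht
  -- it suffices to be below every smaller product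
  have key : ∀ s, 0 ≤ s → s < t → ∀ q, 0 < q → q < ‖b‖ → s * q ≤ Lb := by
    intro s hs0 hst q hq0 hqb
    set k : ℕ → B := fun n => cfc (fun u : ℝ => max (u - s) 0) (h n) with hk
    have hkR : ∀ n, ‖k n‖ ≤ R := fun n => norm_cfc_le hR0 fun u hu => by
      rw [Real.norm_eq_abs, abs_of_nonneg (le_max_right _ _)]
      have h1 : ‖u‖ ≤ ‖h n‖ := by
        rcases subsingleton_or_nontrivial B with hsub | hnt
        · simp at hu
        · exact spectrum.norm_le_norm_of_mem hu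
      rw [Real.norm_eq_abs] at h1
      exact max_le (by linarith [le_abs_self u, hR n]) hR0
    have hkC : CentralTo A k := CentralTo.cfc (by fun_prop) hR
      (fun n => IsSelfAdjoint.of_nonneg (h0 n)) hh
    have hq1 : ∃ m ∈ A, m ≠ 0 ∧ q ^ 2 • (star m * m) ≤ star (b * m) * (b * m) := by
      refine ⟨cfc (fun u : ℝ => max (u - q) 0) b * b, (hA.2.1 _ b hb).1, ?_, ?_⟩
      · intro hm
        have hsa := IsSelfAdjoint.of_nonneg hb0
        haveI : Nontrivial B := ⟨⟨b, 0, hbne⟩⟩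
        have h1 : cfc (fun u : ℝ => max (u - q) 0 * u) b = 0 := by
          rw [cfc_mul _ _ b, cfc_id' ℝ b]; exact hm
        have h2 := norm_apply_le_norm_cfc (fun u : ℝ => max (u - q) 0 * u) b
          (CStarAlgebra.norm_mem_spectrum_of_nonneg hb0)
        rw [h1, norm_zero] at h2
        have h3 : 0 < max (‖b‖ - q) 0 * ‖b‖ := by
          rw [max_eq_left (by linarith)]; exact mul_pos (by linarith) hnb
        linarith [le_abs_self (max (‖b‖ - q) 0 * ‖b‖), (Real.norm_eq_abs (max (‖b‖ - q) 0 * ‖b‖)) ▸ h2]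
      · have hsa := IsSelfAdjoint.of_nonneg hb0
        have e : cfc (fun u : ℝ => max (u - q) 0) b * b = cfc (fun u : ℝ => max (u - q) 0 * u) b := by
          rw [cfc_mul _ _ b, cfc_id' ℝ b]
        have e2 : b * cfc (fun u : ℝ => max (u - q) 0 * u) b =
            cfc (fun u : ℝ => u * (max (u - q) 0 * u)) b := by
          rw [cfc_mul (fun u : ℝ => u) _ b, cfc_id' ℝ b]
        rw [e, e2, (cfc_predicate (R := ℝ) (fun u : ℝ => max (u - q) 0 * u) b).star_eq,
          (cfc_predicate (R := ℝ) (fun u : ℝ => u * (max (u - q) 0 * u)) b).star_eq, ← cfc_mul _ _ b,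
          ← cfc_mul _ _ b, ← cfc_smul (q ^ 2) _ b]
        refine cfc_mono fun u _ => ?_
        simp only [smul_eq_mul]
        rcases le_total u q with hu | hu
        · simp [max_eq_right (sub_nonpos.2 hu)]
        · rw [max_eq_left (sub_nonneg.2 hu)]
          calc q ^ 2 * ((u - q) * u * ((u - q) * u)) ≤ u ^ 2 * ((u - q) * u * ((u - q) * u)) :=
                mul_le_mul_of_nonneg_right (pow_le_pow_left₀ hq0.le hu 2) (mul_self_nonneg _)
            _ = _ := by ring
    obtain ⟨m, hmA, hm0, hmle⟩ := hq1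
    obtain ⟨Lk, hLk0, -, hLk⟩ := exists_ulim ω (fun n => ‖k n * m‖) (R := R * ‖m‖)
      fun n => ⟨norm_nonneg _, (norm_mul_le _ _).trans
        (mul_le_mul_of_nonneg_right (hkR n) (norm_nonneg _))⟩
    have hLkpos : 0 < Lk := by
      rcases hLk0.lt_or_eq with hl | hl
      · exact hl
      · exfalso
        have hka := kill_dichotomy hA hω ⟨R, hkR⟩ hkC hmA hm0 ha (by rw [hl]; exact hLk)
        have h1 : La ≤ s * ‖a‖ := by
          have h2 : Tendsto (fun n => s * ‖a‖ + ‖k n * a‖) (↑ω : Filter ℕ) (𝓝 (s * ‖a‖)) := by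
            simpa using tendsto_const_nhds.add hka
          exact le_of_tendsto_of_tendsto hLa h2
            (Eventually.of_forall fun n => norm_le_cut (h0 n) hs0 a)
        rw [ht, lt_div_iff₀ hna] at hst
        linarith
    -- insert the cut
    have hbm : q * Lk * s ≤ Lb * Lk := by
      have e1 : Tendsto (fun n => ‖h n * b * (k n * m) - h n * (k n * (b * m))‖) (↑ω : Filter ℕ)
          (𝓝 0) := by
        have := tendsto_dist_mul_left (w := fun n => h n) (fun n => hR n)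
          (tendsto_dist_mul_right (w := fun _ => m) (fun _ => le_refl ‖m‖)
            (comm_tendsto hω hkC hb) : Tendsto
              (fun n => ‖k n * b * m - b * k n * m‖) (↑ω : Filter ℕ) (𝓝 0))
        refine this.congr fun n => ?_
        rw [← norm_neg, neg_sub]; simp only [mul_assoc]
      have e2 : Tendsto (fun n => ‖k n * (b * m) - b * m * k n‖) (↑ω : Filter ℕ) (𝓝 0) :=
        comm_tendsto hω hkC (hA.2.1 b m hmA).1
      have e3 : Tendsto (fun n => ‖k n * m - m * k n‖) (↑ω : Filter ℕ) (𝓝 0) :=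
        comm_tendsto hω hkC hmA
      have lhs : Tendsto (fun n => ‖h n * b‖ * ‖k n * m‖ +
          ‖h n * b * (k n * m) - h n * (k n * (b * m))‖ + s * ‖k n * (b * m) - b * m * k n‖ +
          s * q * ‖k n * m - m * k n‖)
          (↑ω : Filter ℕ) (𝓝 (Lb * Lk)) := by
        simpa using (((hLb.mul hLk).add e1).add (e2.const_mul s)).add (e3.const_mul (s * q))
      refine le_of_tendsto_of_tendsto ((hLk.const_mul q).mul_const s) lhs
        (Eventually.of_forall fun n => ?_)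
      have i1 := norm_mul_le (h n * b) (k n * m)
      have i2 : ‖h n * (k n * (b * m))‖ ≤ ‖h n * b * (k n * m)‖ +
          ‖h n * b * (k n * m) - h n * (k n * (b * m))‖ := by
        have := norm_le_insert (h n * b * (k n * m)) (h n * (k n * (b * m)))
        linarith
      have i3 : s * ‖k n * (b * m)‖ ≤ ‖h n * (k n * (b * m))‖ := level_le (h0 n) hs0 (b * m)
      have i4 : ‖b * m * k n‖ ≤ ‖k n * (b * m)‖ + ‖k n * (b * m) - b * m * k n‖ :=
        norm_le_insert _ _
      have i5 : q * ‖m * k n‖ ≤ ‖b * m * k n‖ := by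
        refine norm_smul_le hq0.le ?_
        have := star_left_conjugate_le_conjugate hmle (k n)
        calc q ^ 2 • (star (m * k n) * (m * k n))
            = star (k n) * (q ^ 2 • (star m * m)) * k n := by
              rw [star_mul, mul_smul_comm, smul_mul_assoc]; simp [mul_assoc]
          _ ≤ _ := this
          _ = _ := by simp [star_mul, mul_assoc]
      have i6 : ‖k n * m‖ ≤ ‖m * k n‖ + ‖k n * m - m * k n‖ := norm_le_insert' _ _
      have j1 := mul_le_mul_of_nonneg_left i6 (mul_nonneg hs0 hq0.le)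
      have j2 := mul_le_mul_of_nonneg_left i5 hs0
      have j3 := mul_le_mul_of_nonneg_left i4 hs0
      linarith
    exact le_of_mul_le_mul_right (by linarith) hLkpos
  by_contra hcon
  rw [not_le] at hcon
  have ht0 : 0 < t := pos_of_mul_pos_left (hLb0.trans_lt hcon) hnb.le
  set θ := (Lb / (t * ‖b‖) + 1) / 2 with hθ
  have hr : Lb / (t * ‖b‖) < 1 := (div_lt_one (by positivity)).2 hcon
  have hr0 : 0 ≤ Lb / (t * ‖b‖) := by positivity
  have hθ1 : θ < 1 := by rw [hθ]; linarith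
  have hθ0 : 0 < θ := by rw [hθ]; linarith
  set φ := Real.sqrt θ
  have hφ1 : φ < 1 := by rw [Real.sqrt_lt' one_pos]; linarith
  have hφ0 : 0 < φ := Real.sqrt_pos.2 hθ0
  have := key (t * φ) (by positivity) (mul_lt_of_lt_one_right ht0 hφ1) (‖b‖ * φ) (by positivity)
    (mul_lt_of_lt_one_right hnb hφ1)
  have e : t * φ * (‖b‖ * φ) = t * ‖b‖ * θ := by
    rw [show t * φ * (‖b‖ * φ) = t * ‖b‖ * (φ * φ) by ring, Real.mul_self_sqrt hθ0.le]
  rw [e] at this
  have h2 : Lb = Lb / (t * ‖b‖) * (t * ‖b‖) := by field_simp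
  have h3 : Lb / (t * ‖b‖) < θ := by rw [hθ]; linarith
  have h4 := mul_lt_mul_of_pos_right h3 (mul_pos ht0 hnb)
  linarith

theorem bounded_star {x : ℕ → B} {R : ℝ} (hR : ∀ n, ‖x n‖ ≤ R) : ∀ n, ‖star (x n)‖ ≤ R :=
  fun n => (norm_star _).trans_le (hR n)

/-- The norm against `A` exists. -/
theorem exists_hasN (hA : IsSimpleIdeal A) (hω : (↑ω : Filter ℕ) ≤ atTop) {x : ℕ → B} {R : ℝ}
    (hR : ∀ n, ‖x n‖ ≤ R) (hx : CentralTo A x) : ∃ c, HasN ω A x c := by
  have hR0 : 0 ≤ R := (norm_nonneg _).trans (hR 0)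
  set h : ℕ → B := fun n => star (x n) * x n with hh
  have hhR : ∀ n, ‖h n‖ ≤ R * R := fun n => by
    rw [hh, CStarRing.norm_star_mul_self]
    exact mul_le_mul (hR n) (hR n) (norm_nonneg _) hR0
  have hhC : CentralTo A h := CentralTo.mul (bounded_star hR) hR (CentralTo.star hA hx) hx
  -- limits exist for every element
  choose L hL0 _ hL using fun a : B => exists_ulim ω (fun n => ‖h n * a‖) (R := R * R * ‖a‖)
    fun n => ⟨norm_nonneg _, (norm_mul_le _ _).trans (mul_le_mul_of_nonneg_right (hhR n) (norm_nonneg _))⟩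
  obtain ⟨a₀, ha₀, ha₀0⟩ := exists_ne_zero hA
  set p := star a₀ * a₀ with hp
  have hpA : p ∈ A := (hA.2.1 (star a₀) a₀ ha₀).1
  have hp0 : p ≠ 0 := (CStarRing.star_mul_self_ne_zero_iff a₀).2 ha₀0
  have hnp := norm_pos_iff.2 hp0
  refine ⟨Real.sqrt (L p / ‖p‖), fun a ha => ?_⟩
  by_cases ha0 : a = 0
  · subst ha0; simp
  set q := star a * a
  have hqA : q ∈ A := (hA.2.1 (star a) a ha).1
  have hq0 : q ≠ 0 := (CStarRing.star_mul_self_ne_zero_iff a).2 ha0
  have h1 := pos_prop hA hω hhR (fun n => star_mul_self_nonneg _) hhC hpA hp0 hqA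
    (star_mul_self_nonneg _) hq0 (hL p) (hL q)
  have h2 := pos_prop hA hω hhR (fun n => star_mul_self_nonneg _) hhC hqA hq0 hpA
    (star_mul_self_nonneg _) hp0 (hL q) (hL p)
  have hq : L q = L p / ‖p‖ * ‖q‖ := by
    refine le_antisymm ?_ h1
    rw [div_mul_eq_mul_div, div_le_iff₀ (norm_pos_iff.2 hq0)] at h2
    rw [div_mul_eq_mul_div, le_div_iff₀ hnp]
    linarith
  have hs : Tendsto (fun n => ‖x n * a‖ ^ 2) (↑ω : Filter ℕ) (𝓝 (L q)) := by
    have e : ∀ n, ‖x n * a‖ ^ 2 = ‖star a * (h n * a)‖ := fun n => by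
      rw [sq, ← CStarRing.norm_star_mul_self, star_mul, hh]; simp only [mul_assoc]
    simp only [e]
    refine tendsto_norm_congr ?_ (hL q)
    have hsa : star a ∈ A := hA.star_mem ha
    have := tendsto_dist_mul_right (w := fun _ => a) (fun _ => le_refl ‖a‖)
      (comm_tendsto hω hhC hsa)
    refine this.congr fun n => ?_
    rw [← norm_neg, neg_sub]; simp only [q, mul_assoc]
  have h3 := hs.sqrt
  simp only [Real.sqrt_sq (norm_nonneg _)] at h3
  convert h3 using 2
  rw [hq, show ‖q‖ = ‖a‖ * ‖a‖ from CStarRing.norm_star_mul_self,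
    Real.sqrt_mul (div_nonneg (hL0 p) (norm_nonneg _)), Real.sqrt_mul_self (norm_nonneg _)]

theorem HasN.mul_le (hA : IsSimpleIdeal A) (hω : (↑ω : Filter ℕ) ≤ atTop) {x y : ℕ → B} {R : ℝ}
    (hR : ∀ n, ‖x n‖ ≤ R) (hy : CentralTo A y) {c1 c2 c3 : ℝ} (h1 : HasN ω A x c1)
    (h2 : HasN ω A y c2) (h3 : HasN ω A (fun n => x n * y n) c3) : c3 ≤ c1 * c2 := by
  have hR0 : 0 ≤ R := (norm_nonneg _).trans (hR 0)
  obtain ⟨a, ha, ha0⟩ := exists_ne_zero hA
  refine le_of_mul_le_mul_right (le_of_forall_pos_le_add fun ε hε => ?_) (norm_pos_iff.2 ha0)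
  have hc1 := h1.nonneg hA
  have hc2 := h2.nonneg hA
  obtain ⟨u, hu, -, hu1, hua⟩ := exists_unit_approx hA {a} (by simpa using ha)
    (δ := ε / (c3 + 1)) (by have := h3.nonneg hA; positivity)
  have hc3 := h3.nonneg hA
  have e : Tendsto (fun n => ‖x n * y n * (u * a)‖) (↑ω : Filter ℕ) (𝓝 (c3 * ‖u * a‖)) :=
    h3 (u * a) (hA.2.1 u a ha).1
  have lim : Tendsto (fun n => ‖x n * u‖ * ‖y n * a‖ + R * ‖y n * u - u * y n‖ * ‖a‖)
      (↑ω : Filter ℕ) (𝓝 (c1 * ‖u‖ * (c2 * ‖a‖))) := by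
    simpa using ((h1 u hu).mul (h2 a ha)).add
      (((comm_tendsto hω hy hu).const_mul R).mul_const ‖a‖)
  have hle : c3 * ‖u * a‖ ≤ c1 * ‖u‖ * (c2 * ‖a‖) := by
    refine le_of_tendsto_of_tendsto e lim (Eventually.of_forall fun n => ?_)
    have e1 : x n * y n * (u * a) = x n * u * (y n * a) + x n * (y n * u - u * y n) * a := by
      noncomm_ring
    simp only []
    rw [e1]
    refine (norm_add_le _ _).trans (add_le_add (norm_mul_le _ _) ?_)
    exact (norm_mul_le _ _).trans (mul_le_mul_of_nonneg_right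
      ((norm_mul_le _ _).trans (mul_le_mul_of_nonneg_right (hR n) (norm_nonneg _))) (norm_nonneg _))
  have h4 : ‖a‖ ≤ ‖u * a‖ + ε / (c3 + 1) := by
    have h5 := norm_le_insert (u * a) a
    linarith [(hua a (Finset.mem_singleton_self a)).1]
  have h6 : c1 * ‖u‖ * (c2 * ‖a‖) ≤ c1 * c2 * ‖a‖ := by
    calc c1 * ‖u‖ * (c2 * ‖a‖) ≤ c1 * 1 * (c2 * ‖a‖) :=
          mul_le_mul_of_nonneg_right (mul_le_mul_of_nonneg_left hu1 hc1) (by positivity)
      _ = _ := by ring
  have h7 := mul_le_mul_of_nonneg_left h4 hc3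
  have h8 : c3 * (ε / (c3 + 1)) ≤ ε := by
    rw [mul_div_assoc', div_le_iff₀ (by positivity)]; nlinarith
  linarith

theorem HasN.star_mul_self (hA : IsSimpleIdeal A) (hω : (↑ω : Filter ℕ) ≤ atTop) {x : ℕ → B}
    {R : ℝ} (hR : ∀ n, ‖x n‖ ≤ R) (hx : CentralTo A x) {c : ℝ} (h : HasN ω A x c) :
    HasN ω A (fun n => star (x n) * x n) (c ^ 2) := by
  have hhC : CentralTo A (fun n => Star.star (x n) * x n) :=
    CentralTo.mul (bounded_star hR) hR (CentralTo.star hA hx) hx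
  have hhR : ∀ n, ‖Star.star (x n) * x n‖ ≤ R * R := fun n => by
    rw [CStarRing.norm_star_mul_self]
    exact mul_le_mul (hR n) (hR n) (norm_nonneg _) ((norm_nonneg _).trans (hR 0))
  obtain ⟨c', hc'⟩ := exists_hasN hA hω hhR hhC
  obtain ⟨a, ha, ha0⟩ := exists_ne_zero hA
  have hsa : Star.star a ∈ A := hA.star_mem ha
  have hqA : Star.star a * a ∈ A := (hA.2.1 (Star.star a) a ha).1
  have e1 : Tendsto (fun n => ‖x n * a‖ ^ 2) (↑ω : Filter ℕ) (𝓝 (c' * ‖Star.star a * a‖)) := by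
    have e : ∀ n, ‖x n * a‖ ^ 2 = ‖Star.star a * (Star.star (x n) * x n * a)‖ := fun n => by
      rw [sq, ← CStarRing.norm_star_mul_self, star_mul]; simp only [mul_assoc]
    simp only [e]
    refine tendsto_norm_congr ?_ (hc' _ hqA)
    have := tendsto_dist_mul_right (w := fun _ => a) (fun _ => le_refl ‖a‖)
      (comm_tendsto hω hhC hsa)
    refine this.congr fun n => ?_
    rw [← norm_neg, neg_sub]; simp only [mul_assoc]
  have e2 := tendsto_nhds_unique e1 ((h a ha).pow 2)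
  rw [CStarRing.norm_star_mul_self, mul_pow, sq ‖a‖] at e2
  rwa [← mul_right_cancel₀ (by positivity) e2]

theorem HasN.star (hA : IsSimpleIdeal A) (hω : (↑ω : Filter ℕ) ≤ atTop) {x : ℕ → B} {R : ℝ}
    (hR : ∀ n, ‖x n‖ ≤ R) (hx : CentralTo A x) {c : ℝ} (h : HasN ω A x c) :
    HasN ω A (fun n => Star.star (x n)) c := by
  obtain ⟨c', hc'⟩ := exists_hasN hA hω (bounded_star hR) (CentralTo.star hA hx)
  have h1 : c ^ 2 ≤ c' * c := hc'.mul_le hA hω (bounded_star hR) hx h (h.star_mul_self hA hω hR hx)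
  have h2 : c' ^ 2 ≤ c * c' := by
    have := hc'.star_mul_self hA hω (bounded_star hR) (CentralTo.star hA hx)
    simp only [star_star] at this
    exact h.mul_le hA hω hR (CentralTo.star hA hx) hc' this
  have := h.nonneg hA
  have := hc'.nonneg hA
  have : c = c' := by nlinarith
  rwa [this]

theorem HasN.map (hA : IsSimpleIdeal A) (σ : B ≃⋆ₐ[ℂ] B) (hσ : ∀ a ∈ A, σ a ∈ A ∧ σ.symm a ∈ A)
    {x : ℕ → B} {c : ℝ} (h : HasN ω A x c) : HasN ω A (fun n => σ (x n)) c := by
  intro a ha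
  have h1 := h (σ.symm a) (hσ a ha).2
  have e : ∀ n, ‖σ (x n) * a‖ = ‖x n * σ.symm a‖ := fun n => by
    rw [← StarAlgEquiv.norm_map σ (x n * σ.symm a), map_mul, σ.apply_symm_apply]
  simp only [e]
  rwa [← StarAlgEquiv.norm_map σ (σ.symm a), σ.apply_symm_apply] at h1

end Vale.Agent.P095.SI.Ker
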